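import Crest.Agent.N250.Mt.PR
import Crest.Agent.N250.Lp.Lin
import Crest.Agent.N250.Cj.Area
import Crest.Agent.N250.Sw.Pg
import Crest.Agent.N250.R0.Core
import Crest.Agent.N250.B1.Sm4
import Crest.Agent.N250.B1.DrS
import Crest.Agent.N250.Ec.Dat
import Crest.Agent.N250.HJ.Der
import Crest.Agent.N250.Fv.End
import Crest.Agent.N250.Ec.Tube
import Crest.Agent.N250.Ro.Rot
import Crest.Agent.N250.Wr.Cut

-- ▼ part N250/Mt/Geo
section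

/-!
# Row 250 (helper74): the matching `w = χ U` on an end of the shrinker
-/

set_option autoImplicit false
open MeasureTheory Set Filter Topology
open scoped ContDiff

noncomputable section

namespace Crest.Agent.N250.Mt

open Po WS Gc Cj Lp

/-- `r² + (r r_x)² + r_θ²` -/
def Qr (r : ℝ × ℝ → ℂ) (z : ℝ × ℝ) : ℂ := r z ^ 2 + (r z * d1 r z) ^ 2 + d2 r z ^ 2

/-- a bound of the 1-jet -/
structure Bd (K : ℝ) (f : ℝ × ℝ → ℂ) (z : ℝ × ℝ) : Prop where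
  cd : ContDiffAt ℝ 1 f z
  b0 : ‖f z‖ ≤ K
  b1 : ‖d1 f z‖ ≤ K
  b2 : ‖d2 f z‖ ≤ K

section Bd

variable {K L ε C : ℝ} {f g r : ℝ × ℝ → ℂ} {z : ℝ × ℝ}

theorem Bd.dif (h : Bd K f z) : DifferentiableAt ℝ f z := h.cd.differentiableAt (by simp)

theorem Bd.nn (h : Bd K f z) : 0 ≤ K := (norm_nonneg _).trans h.b0

theorem Bd.add (h : Bd K f z) (k : Bd L g z) : Bd (K + L) (fun y => f y + g y) z := by
  have e : ∀ w, fderiv ℝ (fun y => f y + g y) z w = fderiv ℝ f z w + fderiv ℝ g z w := fun w => by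
    rw [fderiv_fun_add h.dif k.dif]; rfl
  exact ⟨h.cd.add k.cd, norm_add_le_of_le h.b0 k.b0, (congrArg _ (e _)).trans_le (norm_add_le_of_le h.b1 k.b1),
    (congrArg _ (e _)).trans_le (norm_add_le_of_le h.b2 k.b2)⟩

theorem Bd.mul (h : Bd K f z) (k : Bd L g z) : Bd (2 * K * L) (fun y => f y * g y) z := by
  have m : ∀ {a b : ℂ}, ‖a‖ ≤ K → ‖b‖ ≤ L → ‖a * b‖ ≤ K * L := fun ha hb =>
    (norm_mul _ _).trans_le (mul_le_mul ha hb (norm_nonneg _) h.nn)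
  have e : ∀ w, ‖fderiv ℝ f z w‖ ≤ K → ‖fderiv ℝ g z w‖ ≤ L →
      ‖fderiv ℝ (fun y => f y * g y) z w‖ ≤ 2 * K * L := fun w h1 h2 => by
    rw [Lp.fd_mul h.dif k.dif]
    exact (norm_add_le_of_le (m h.b0 h2) (m h1 k.b0)).trans_eq (by ring)
  exact ⟨h.cd.mul k.cd, (m h.b0 k.b0).trans (by nlinarith [mul_nonneg h.nn k.nn]),
    e _ h.b1 k.b1, e _ h.b2 k.b2⟩

theorem Bd.inv (h : Bd K f z) (h1 : 1 ≤ ‖f z‖) : Bd K (fun y => (f y)⁻¹) z := by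
  have h0 : f z ≠ 0 := norm_pos_iff.1 (by linarith)
  have e : ∀ w, ‖fderiv ℝ f z w‖ ≤ K → ‖fderiv ℝ (fun y => (f y)⁻¹) z w‖ ≤ K := fun w hw => by
    have := ((hasDerivAt_inv h0).hasFDerivAt.restrictScalars ℝ).comp z h.dif.hasFDerivAt
    have e2 : fderiv ℝ (fun y => (f y)⁻¹) z w = fderiv ℝ f z w * -(f z ^ 2)⁻¹ :=
      congrArg (fun T : ℝ × ℝ →L[ℝ] ℂ => T w) this.fderiv
    rw [e2, norm_mul, _root_.norm_neg, norm_inv, norm_pow]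
    exact (mul_le_of_le_one_right (norm_nonneg _)
      (inv_le_one_of_one_le₀ (one_le_pow₀ h1))).trans hw
  exact ⟨h.cd.inv h0, by rw [norm_inv]; exact (inv_le_one_of_one_le₀ h1).trans (h1.trans h.b0),
    e _ h.b1, e _ h.b2⟩

theorem Bd.congr (h : Bd K f z) (e : g =ᶠ[𝓝 z] f) : Bd K g z :=
  ⟨h.cd.congr_of_eventuallyEq e, e.self_of_nhds ▸ h.b0,
    by rw [d1, e.fderiv_eq]; exact h.b1, by rw [d2, e.fderiv_eq]; exact h.b2⟩

theorem sq2 : 1.4 ≤ √2 ∧ √2 ≤ (1.5 : ℝ) :=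
  ⟨Real.le_sqrt_of_sq_le (by norm_num), Real.sqrt_le_iff.2 (by norm_num)⟩

theorem Nr.norm (h : Nr (√2 : ℝ) ε C r z) (hε : ε ≤ 1 / 10) : 1 ≤ ‖r z‖ ∧ ‖r z‖ ≤ 2 := by
  have h1 := abs_le.1 ((abs_norm_sub_norm_le _ _).trans h.1)
  rw [Complex.norm_real, Real.norm_of_nonneg (Real.sqrt_nonneg _)] at h1
  constructor <;> linarith [sq2.1, sq2.2, h1.1, h1.2]

theorem Nr.C0 {c : ℂ} (h : Nr c ε C r z) : 0 ≤ C := (norm_nonneg _).trans h.2.2.2.1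

theorem Nr.bd (h : Nr (√2 : ℝ) ε C r z) (hε : ε ≤ 1 / 10) (hr : ContDiffAt ℝ 2 r z) :
    Bd (C + 2) r z ∧ Bd (C + 2) (d1 r) z ∧ Bd (C + 2) (d2 r) z := by
  have c := h.C0
  have n := (h.norm hε).2
  obtain ⟨-, a1, a2, a3, a4, a5⟩ := h
  have s : ∀ w, ContDiffAt ℝ 1 (fun y => fderiv ℝ r y w) z := fun w =>
    (hr.fderiv_right (m := 1) (by norm_num)).clm_apply contDiffAt_const
  exact ⟨⟨hr.of_le (by norm_num), by linarith, by linarith, by linarith⟩,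
    ⟨s _, by linarith, by linarith, by rw [d21 hr]; linarith⟩,
    ⟨s _, by linarith, by linarith, by linarith⟩⟩

/-- the bound of the jet of `Qr` -/
def cQ (K : ℝ) : ℝ := 2 * K * K + 2 * (2 * K * K) * (2 * K * K) + 2 * K * K

theorem Nr.bdQ (h : Nr (√2 : ℝ) ε C r z) (hε : ε ≤ 1 / 10) (hr : ContDiffAt ℝ 2 r z) :
    Bd (cQ (C + 2)) (Qr r) z := by
  obtain ⟨a, b, c⟩ := h.bd hε hr
  exact (((a.mul a).add ((a.mul b).mul (a.mul b))).add (c.mul c)).congr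
    (.of_forall fun y => by simp only [Qr, sq])

theorem Nr.Qr_sub (h : Nr (√2 : ℝ) ε C r z) (hε : ε ≤ 1 / 10) :
    ‖Qr r z * r z - 2 * (√2 : ℝ)‖ ≤ 9 * ε := by
  obtain ⟨-, n⟩ := h.norm hε
  obtain ⟨a0, a1, a2, -⟩ := h
  have e0 := (norm_nonneg _).trans a0
  set s : ℂ := ((√2 : ℝ) : ℂ)
  have hs : ‖s‖ ≤ 1.5 := by
    rw [Complex.norm_real, Real.norm_of_nonneg (Real.sqrt_nonneg _)]; exact sq2.2
  have n' : ‖r z‖ ≤ 1.6 := by
    have := norm_add_le (r z - s) s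
    rw [sub_add_cancel] at this; linarith
  have e : Qr r z * r z - 2 * s = (r z - s) * (r z * r z + r z * s + s * s) +
      r z * r z * r z * (d1 r z * d1 r z) + r z * (d2 r z * d2 r z) := by
    rw [Qr]; linear_combination s * s2
  have m : ∀ {a b : ℂ} {x y : ℝ}, ‖a‖ ≤ x → ‖b‖ ≤ y → ‖a * b‖ ≤ x * y := fun ha hb =>
    (norm_mul _ _).trans_le (mul_le_mul ha hb (norm_nonneg _) ((norm_nonneg _).trans ha))
  rw [e]
  refine (norm_add_le_of_le (norm_add_le_of_le (m a0 (norm_add_le_of_le (norm_add_le_of_le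
    (m n' n') (m n' hs)) (m hs hs))) (m (m (m n' n') n') (m a1 a1))) (m n' (m a2 a2))).trans ?_
  nlinarith

theorem Nr.Qr_ge (h : Nr (√2 : ℝ) ε C r z) (hε : ε ≤ 1 / 10) : 1 ≤ ‖Qr r z * r z‖ := by
  have h1 := abs_le.1 ((abs_norm_sub_norm_le _ _).trans (h.Qr_sub hε))
  rw [norm_mul (2 : ℂ), Complex.norm_real, Real.norm_of_nonneg (Real.sqrt_nonneg _),
    Complex.norm_two] at h1
  linarith [sq2.1, h1.1]

theorem cn_of {n : ℕ} {R : ℝ} (h : ∀ z : ℝ × ℝ, R ≤ z.1 → ContDiffAt ℝ n f z)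
    (hp : ∀ x θ, R < x → f (x, θ + 2 * Real.pi) = f (x, θ)) : Cn n R f :=
  ⟨fun z hz => ((h z hz).of_le (by exact_mod_cast Nat.sub_le n 1)).contDiffWithinAt,
    fun z hz => (h z (le_of_lt hz)).contDiffWithinAt, hp⟩

end Bd

/-- MATCHING in the polar chart, in the normalisation of the glued system -/
theorem match_q : ∃ ε : ℝ, 0 < ε ∧ ε ≤ 1 / 10 ∧ ∀ C : ℝ, ∃ R₁ : ℝ, ∀ R, R₁ ≤ R →
    ∀ r₀ r₁ r₂ χ : ℝ × ℝ → ℂ, (∀ z : ℝ × ℝ, R ≤ z.1 → ContDiffAt ℝ 2 r₀ z ∧ ContDiffAt ℝ 2 r₂ z ∧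
      Bd C χ z ∧ ‖1 - χ z‖ + ‖χ z‖ ≤ 1 ∧ Nr (√2 : ℝ) ε C r₀ z ∧
      (χ =ᶠ[𝓝 z] 0 ∨ Nr (√2 : ℝ) ε C r₂ z)) →
    (∀ x θ, R < x → r₀ (x, θ + 2 * Real.pi) = r₀ (x, θ) ∧ r₂ (x, θ + 2 * Real.pi) = r₂ (x, θ) ∧
      χ (x, θ + 2 * Real.pi) = χ (x, θ)) → Cn 2 R r₁ →
    (∀ z : ℝ × ℝ, R < z.1 → χ =ᶠ[𝓝 z] 0 ∨
      (Nr (√2 : ℝ) ε C r₁ z ∧ PRj z.1 (j1 r₁ z) (j2 r₁ z) = 0)) →
    (∀ θ, r₂ (R, θ) = r₁ (R, θ)) →
    (Lo fun z => ‖r₂ z - r₁ z‖ * (‖d1 r₂ z - d1 r₁ z‖ + ‖d2 r₂ z - d2 r₁ z‖)) →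
    (∀ z : ℝ × ℝ, R < z.1 → (1 - χ z) * (PL z.1 (j1 r₀ z) (j2 r₀ z) (j1 r₂ z - j1 r₁ z)
      (j2 r₂ z - j2 r₁ z) / (Qr r₀ z * r₀ z)) +
        χ z * (PRj z.1 (j1 r₂ z) (j2 r₂ z) / (Qr r₂ z * r₂ z)) = 0) →
    ∀ z : ℝ × ℝ, R ≤ z.1 → r₂ z = r₁ z := by
  obtain ⟨ε₀, h0, H⟩ := match_r
  set ε := min (ε₀ / 18) (1 / 10)
  have e1 : ε ≤ ε₀ / 18 := min_le_left _ _
  have e2 : ε ≤ 1 / 10 := min_le_right _ _
  have e0 : 0 < ε := lt_min (by positivity) (by norm_num)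
  refine ⟨ε, e0, e2, fun C => ?_⟩
  set K := 2 * cQ (C + 2) * (C + 2)
  set C' := max C (2 * C * (2 * K * K))
  obtain ⟨R₁, H⟩ := H C'
  refine ⟨R₁, fun R hR r₀ r₁ r₂ χ h hp h1 h1' hb hl he => ?_⟩
  have up : ∀ {r z}, Nr (√2 : ℝ) ε C r z → Nr (√2 : ℝ) ε₀ C' r z := fun ⟨a, b, c, d, e, f⟩ =>
    have : ε ≤ ε₀ := by linarith
    have k : C ≤ C' := le_max_left _ _
    ⟨a.trans this, b.trans this, c.trans this, d.trans k, e.trans k, f.trans k⟩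
  set m : ℝ × ℝ → ℂ := fun z => Qr r₀ z * r₀ z * (Qr r₂ z * r₂ z)⁻¹ with hm
  set B : ℝ × ℝ → ℂ := fun z => χ z * m z with hB
  have z0 : ∀ {z}, χ =ᶠ[𝓝 z] 0 → B =ᶠ[𝓝 z] fun _ => 0 := fun hz =>
    hz.mono fun y hy => by simp [hB, hy]
  have bm : ∀ z : ℝ × ℝ, R ≤ z.1 → Nr (√2 : ℝ) ε C r₂ z → Bd (2 * K * K) m z ∧ ‖m z - 1‖ ≤ ε₀ := by
    intro z hz n2
    obtain ⟨c0, c2, -, -, n0, -⟩ := h z hz
    have g := n2.Qr_ge e2
    refine ⟨((n0.bdQ e2 c0).mul (n0.bd e2 c0).1).mul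
      (((n2.bdQ e2 c2).mul (n2.bd e2 c2).1).inv g), ?_⟩
    have ne : Qr r₂ z * r₂ z ≠ 0 := norm_pos_iff.1 (by linarith)
    have : m z - 1 = ((Qr r₀ z * r₀ z - 2 * (√2 : ℝ)) - (Qr r₂ z * r₂ z - 2 * (√2 : ℝ))) *
        (Qr r₂ z * r₂ z)⁻¹ := by
      rw [hm, sub_sub_sub_cancel_right, sub_mul, mul_inv_cancel₀ ne]
    rw [this, norm_mul, norm_inv]
    refine (mul_le_of_le_one_right (norm_nonneg _) (inv_le_one_of_one_le₀ g)).trans ?_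
    refine (norm_sub_le_of_le (n0.Qr_sub e2) (n2.Qr_sub e2)).trans (by linarith)
  have d0 : ∀ w z : ℝ × ℝ, fderiv ℝ (fun _ : ℝ × ℝ => (0 : ℂ)) z w = 0 := fun w z => by simp
  have dA : ∀ w z : ℝ × ℝ, fderiv ℝ (fun y => 1 - χ y) z w = -fderiv ℝ χ z w := fun w z => by
    rw [fderiv_const_sub]; rfl
  refine H R hR r₀ r₁ r₂ (fun z => 1 - χ z) B (cn_of (fun z hz => (h z hz).1) fun x θ hx =>
    (hp x θ hx).1) h1 (cn_of (fun z hz => (h z hz).2.1) fun x θ hx => (hp x θ hx).2.1)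
    (cn_of (fun z hz => contDiffAt_const.sub (h z hz).2.2.1.cd) fun x θ hx => by
      rw [(hp x θ hx).2.2]) (cn_of (fun z hz => ?_) fun x θ hx => ?_) (fun z hz => ?_)
    (fun z hz => up (h z hz.le).2.2.2.2.1) (fun z hz => ?_) hb hl fun z hz => ?_
  · rcases (h z hz).2.2.2.2.2 with k | k
    · exact contDiffAt_const.congr_of_eventuallyEq (z0 k)
    · exact (h z hz).2.2.1.cd.mul (bm z hz k).1.cd
  · simp only [hB, hm, Qr, d1, d2, (hp x θ hx).1, (hp x θ hx).2.1, (hp x θ hx).2.2,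
      per_fd (fun x θ hx => (hp x θ hx).1) hx, per_fd (fun x θ hx => (hp x θ hx).2.1) hx]
  · obtain ⟨-, -, bχ, n1, -, k⟩ := h z hz.le
    have kc : C ≤ C' := le_max_left _ _
    have a1 : ‖d1 (fun y => 1 - χ y) z‖ ≤ C' := by rw [d1, dA, _root_.norm_neg]; exact bχ.b1.trans kc
    have a2 : ‖d2 (fun y => 1 - χ y) z‖ ≤ C' := by rw [d2, dA, _root_.norm_neg]; exact bχ.b2.trans kc
    rcases k with k | k
    · have k0 : χ z = 0 := k.self_of_nhds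
      have c0 := bχ.nn.trans kc
      refine ⟨by simp [hB, k0], by simp [hB, k0, h0.le], a1, a2, ?_, ?_⟩
      · rw [d1, (z0 k).fderiv_eq, d0]; simpa using c0
      · rw [d2, (z0 k).fderiv_eq, d0]; simpa using c0
    · obtain ⟨b, b'⟩ := bm z hz.le k
      have c1 : ‖χ z‖ ≤ 1 := by linarith [norm_nonneg (1 - χ z)]
      have q : ‖χ z * (m z - 1)‖ ≤ ‖m z - 1‖ := by
        rw [norm_mul]; exact mul_le_of_le_one_left (norm_nonneg _) c1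
      have q2 : ‖m z - 1‖ ≤ 1 := by
        obtain ⟨-, -, -, -, n0, -⟩ := h z hz.le
        have g := k.Qr_ge e2
        have ne : Qr r₂ z * r₂ z ≠ 0 := norm_pos_iff.1 (by linarith)
        have g2 : 1.9 ≤ ‖Qr r₂ z * r₂ z‖ := by
          have h1 := abs_le.1 ((abs_norm_sub_norm_le _ _).trans (k.Qr_sub e2))
          rw [norm_mul (2 : ℂ), Complex.norm_real, Real.norm_of_nonneg (Real.sqrt_nonneg _),
            Complex.norm_two] at h1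
          linarith [sq2.1, h1.1]
        have : m z - 1 = ((Qr r₀ z * r₀ z - 2 * (√2 : ℝ)) - (Qr r₂ z * r₂ z - 2 * (√2 : ℝ))) /
            (Qr r₂ z * r₂ z) := by
          rw [hm, sub_sub_sub_cancel_right, sub_div, div_self ne, div_eq_mul_inv]
        rw [this, norm_div, div_le_one (by linarith)]
        exact (norm_sub_le_of_le (n0.Qr_sub e2) (k.Qr_sub e2)).trans (by linarith)
      have kb := (bχ.mul b)
      refine ⟨?_, ?_, a1, a2, kb.b1.trans (le_max_right _ _), kb.b2.trans (le_max_right _ _)⟩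
      · have : B z = χ z + χ z * (m z - 1) := by simp only [hB]; ring
        rw [this]
        linarith [norm_add_le (χ z) (χ z * (m z - 1))]
      · have : 1 - χ z + B z - 1 = χ z * (m z - 1) := by simp only [hB]; ring
        rw [this]; linarith
  · rcases (h z hz.le).2.2.2.2.2 with k | k
    · exact .inl ⟨(z0 k).self_of_nhds, by rw [d1, (z0 k).fderiv_eq, d0],
        by rw [d2, (z0 k).fderiv_eq, d0]⟩
    · rcases h1' z hz with k' | k'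
      · exact .inl ⟨(z0 k').self_of_nhds, by rw [d1, (z0 k').fderiv_eq, d0],
          by rw [d2, (z0 k').fderiv_eq, d0]⟩
      · exact .inr ⟨up k'.1, up k⟩
  · have g := (h z hz.le).2.2.2.2.1.Qr_ge e2
    have ne : Qr r₀ z * r₀ z ≠ 0 := norm_pos_iff.1 (by linarith)
    have k : χ z * PRj z.1 (j1 r₁ z) (j2 r₁ z) = 0 := by
      rcases h1' z hz with k | k
      · rw [k.self_of_nhds]; exact zero_mul _
      · rw [k.2, mul_zero]
    have := congrArg (· * (Qr r₀ z * r₀ z)) (he z hz)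
    simp only [add_mul, mul_assoc (1 - χ z), div_mul_cancel₀ _ ne, zero_mul] at this
    simp only [hB, hm]
    rw [div_eq_mul_inv] at this
    linear_combination this - Qr r₀ z * r₀ z * (Qr r₂ z * r₂ z)⁻¹ * k

theorem hd_mul (a b c d : ℂ) :
    HasDerivAt (fun s : ℂ => (a + s * b) * (c + s * d)) (a * d + b * c) 0 := by
  have h : ∀ a b : ℂ, HasDerivAt (fun s : ℂ => a + s * b) b 0 := fun a b => by
    simpa using ((hasDerivAt_id (0 : ℂ)).mul_const b).const_add a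
  simpa [add_comm] using (h a b).fun_mul (h c d)

variable {X : Type} [TopologicalSpace X] [MeasurableSpace X] {G : Geo X} {ψ : ℝ × ℝ → X}
  {Q : N222.E (Fin 3) ≃ₗᵢ[ℝ] N222.E (Fin 3)} {r : ℝ × ℝ → ℝ} {q : ℝ × ℝ}

/-- `PL` is `linEL` up to the unit `Qr` -/
theorem PL_eq (h : Pl G ψ Q r q) {D : ℝ × ℝ → ℂ} (hD : ContDiffAt ℝ 2 D q) :
    PL q.1 (j1 (fun y => (r y : ℂ)) q) (j2 (fun y => (r y : ℂ)) q) (j1 D q) (j2 D q) =
      linEL (vS r) (fun y => r y * D y) q * Qr (fun y => (r y : ℂ)) q := by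
  set R : ℝ × ℝ → ℂ := fun y => (r y : ℂ)
  have p := h.pc
  let a : Fin 6 → ℂ → ℂ := fun i s => jet R q i + s * jet D q i
  let J : ℂ → Fin 6 → ℂ := fun s => ![a 0 s * a 0 s / 2, a 0 s * a 1 s, a 0 s * a 2 s,
    a 0 s * a 3 s + a 1 s * a 1 s, a 0 s * a 4 s + a 1 s * a 2 s, a 0 s * a 5 s + a 2 s * a 2 s]
  have J0 : J 0 = jet (vS r) q := by
    funext i
    induction i using fin6
    · simp [J, a, vS, sq, R]
    · simpa [J, a] using p.v1.symm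
    · simpa [J, a] using p.v2.symm
    · simpa [J, a] using p.v11.symm
    · simpa [J, a] using p.v12.symm
    · simpa [J, a] using p.v22.symm
  have hJ : HasDerivAt J (jet (fun y => R y * D y) q) 0 := by
    rw [jet_mul p.smr hD, hasDerivAt_pi]
    intro i
    induction i using fin6
    · exact ((hd_mul ..).div_const 2).congr_deriv (by simp [jm]; ring)
    · exact (hd_mul ..).congr_deriv (by simp [jm]; ring)
    · exact (hd_mul ..).congr_deriv (by simp [jm]; ring)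
    · exact ((hd_mul ..).fun_add (hd_mul ..)).congr_deriv (by simp [jm]; ring)
    · exact ((hd_mul ..).fun_add (hd_mul ..)).congr_deriv (by simp [jm]; ring)
    · exact ((hd_mul ..).fun_add (hd_mul ..)).congr_deriv (by simp [jm]; ring)
  let Qs : ℂ → ℂ := fun s => a 0 s ^ 2 + (a 0 s * a 1 s) ^ 2 + a 2 s ^ 2
  have dQ : DifferentiableAt ℂ Qs 0 := by simp only [Qs, a]; fun_prop
  have Q0 : Qs 0 = Qr R q := by simp [Qs, a, Qr]
  have hQ : Qr R q ≠ 0 := fun e => h.QC_ne (p.QC_eq.trans e)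
  have e1 : ∀ᶠ s in 𝓝 (0 : ℂ), a 0 s ≠ 0 :=
    (show ContinuousAt (a 0) 0 by simp only [a]; fun_prop).eventually_ne (by simpa [a, R] using h.ne)
  have e2 : ∀ᶠ s in 𝓝 (0 : ℂ), Qs s ≠ 0 := dQ.continuousAt.eventually_ne (Q0 ▸ hQ)
  have k := (hasDerivAt_ELj hJ J0 h.vS_ne h.QC_ne).fun_mul dQ.hasDerivAt
  rw [J0, h.EL_zero, zero_mul, add_zero, Q0] at k
  refine (hasDerivAt_PR ..).unique (k.congr_of_eventuallyEq ?_)
  filter_upwards [e1, e2] with s h1 h2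
  have := EL_r h1 h2 q.1 (a 3 s) (a 4 s) (a 5 s)
  rw [sq (a 0 s)] at this
  rw [show Qs s = a 0 s * a 0 s + (a 0 s * a 1 s) ^ 2 + a 2 s ^ 2 by simp only [Qs]; ring]
  exact this.symm

/-- the Jacobi operator in the `r`-variable -/
theorem LL_pol (h : Pl G ψ Q r q) (w : G.SmC) {D : ℝ × ℝ → ℂ} (hD : ContDiffAt ℝ 2 D q)
    (e : ∀ᶠ y in 𝓝 q, w.1 (ψ y) = nom G ψ Q y * D y) : (G.SC.LL w).1 (ψ q) = nom G ψ Q q *
      (PL q.1 (j1 (fun y => (r y : ℂ)) q) (j2 (fun y => (r y : ℂ)) q) (j1 D q) (j2 D q) /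
        (Qr (fun y => (r y : ℂ)) q * r q)) := by
  have hQ : Qr (fun y => (r y : ℂ)) q ≠ 0 := fun e => h.QC_ne (h.pc.QC_eq.trans e)
  rw [PL_eq h hD, h.linpol w (d := fun y => r y * D y), tau]
  · field_simp [h.ne, h.nom_ne]
  · filter_upwards [e, h.ev] with y h1 h2
    rw [h1, tau]; field_simp [h2.nom_ne]

/-- the normalised equation `ELX / (2 G ⟨N, Z⟩)` in the `r`-variable -/
theorem EQ_pol {Y : Fin 3 → G.SmC} {f : Fin 3 → Fin 3 → ℂ} {s v : ℝ × ℝ → ℂ}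
    (h : Pc G ψ Y f s v q) (hs : Cj.sg G ψ q ≠ 0) (hQ : Qr s q ≠ 0) {ν : ℂ} (hν : ν ≠ 0) :
    (G.SC.ELX Y).1 (ψ q) / (2 * (G.SC.GX Y).1 (ψ q) *
      dot (val (G.SC.NX Y) (ψ q)) (frC f q.2 0 ν⁻¹ 0)) =
      -(ν * (PRj q.1 (j1 s q) (j2 s q) / (Qr s q * s q))) := by
  have h1 := h.EL_r
  have h2 := h.G_pol
  have h3 := h.dot_N (frC f q.2 0 ν⁻¹ 0)
  rw [h.on.dot_frC] at h3
  rw [h.QC_eq] at h2
  have e1 := eq_div_of_mul_eq (pow_ne_zero 3 hs) ((mul_comm _ _).trans h1)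
  have e2 := eq_div_of_mul_eq (pow_ne_zero 2 hs) ((mul_comm _ _).trans h2)
  have e3 := eq_div_of_mul_eq hs ((mul_comm _ _).trans h3)
  have := h.on.dl_ne
  have := h.ne
  rw [e1, e2, e3]
  change _ / (2 * (Qr s q / _) * _) = -(ν * (PR _ _ _ _ _ _ _ / _))
  simp only [j1, j2, mul_zero, zero_add, add_zero]
  field_simp

/-- `EL v = 0` in the `r`-variable -/
theorem PRj_zero {s v : ℝ × ℝ → ℂ} (hs : ContDiffAt ℝ 2 s q) (h0 : s q ≠ 0) (hQ : Qr s q ≠ 0)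
    (hv : ∀ᶠ y in 𝓝 q, v y = s y ^ 2 / 2) (he : ELC v q = 0) :
    PRj q.1 (j1 s q) (j2 s q) = 0 := by
  have d := hs.differentiableAt (by simp)
  have := EL_r h0 hQ q.1 (d1 (d1 s) q) (d1 (d2 s) q) (d2 (d2 s) q)
  rw [← hv.self_of_nhds, show s q * d1 s q = d1 v q from (fd_vC d hv _).symm,
    show s q * d2 s q = d2 v q from (fd_vC d hv _).symm,
    show s q * d1 (d1 s) q + d1 s q * d1 s q = d1 (d1 v) q from (fd2_vC hs hv _ _).symm,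
    show s q * d1 (d2 s) q + d1 s q * d2 s q = d1 (d2 v) q from (fd2_vC hs hv _ _).symm,
    show s q * d2 (d2 s) q + d2 s q * d2 s q = d2 (d2 v) q from (fd2_vC hs hv _ _).symm] at this
  exact this.symm.trans (mul_eq_zero_of_left he _)

variable [T2Space X] [SecondCountableTopology X] [BorelSpace X]

omit [T2Space X] [SecondCountableTopology X] [BorelSpace X] in
theorem lint_sq {f : G.SmC} (h : G.gC f ≠ ⊤) : ∫⁻ p, ENNReal.ofReal (‖f.1 p‖ ^ 2) ∂G.ga ≠ ⊤ := by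
  have := lintegral_rpow_enorm_lt_top_of_eLpNorm_lt_top two_ne_zero ENNReal.ofNat_ne_top h.lt_top
  refine ne_of_eq_of_ne (lintegral_congr fun p => ?_) this.ne
  rw [ENNReal.ofReal_pow (norm_nonneg _), ofReal_norm]; simp

/-- Gaussian `H¹` gives `Lo` -/
theorem lo_geo {R ε C : ℝ} (hP : ∀ q : ℝ × ℝ, R < q.1 → Pl G ψ Q r q ∧
      Nr (√2 : ℝ) ε C (fun y => (r y : ℂ)) q) (hε : ε ≤ 1 / 10)
    (hi : InjOn ψ (Ioi R ×ˢ Ico 0 (2 * Real.pi))) {w : G.SmC} (h0 : G.gC w ≠ ⊤)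
    (hL : G.gC (G.SC.LL w) ≠ ⊤) :
    Lo fun q => ‖w.1 (ψ q)‖ ^ 2 + ∑ a, ‖(G.SC.D a w).1 (ψ q)‖ ^ 2 := by
  set φ : X → ℝ := fun p => ‖w.1 p‖ ^ 2 + ∑ a, ‖(G.SC.D a w).1 p‖ ^ 2
  have cw : ∀ f : G.SmC, Continuous fun p => ‖f.1 p‖ ^ 2 := fun f =>
    (N222.Imm.Sm.continuous f.2).norm.pow 2
  have cφ : Continuous φ := (cw w).add (continuous_finsetSum _ fun a _ => cw _)
  have fin : ∫⁻ p, ENNReal.ofReal (φ p) ∂G.ga ≠ ⊤ := by
    have : ∀ p, ENNReal.ofReal (φ p) = ENNReal.ofReal (‖w.1 p‖ ^ 2) +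
        ∑ a, ENNReal.ofReal (‖(G.SC.D a w).1 p‖ ^ 2) := fun p => by
      rw [ENNReal.ofReal_add (by positivity) (by positivity),
        ENNReal.ofReal_sum_of_nonneg fun _ _ => by positivity]
    simp only [this]
    rw [lintegral_add_left (cw w).measurable.ennreal_ofReal,
      lintegral_finsetSum _ fun a _ => (cw _).measurable.ennreal_ofReal]
    exact ENNReal.add_ne_top.2 ⟨lint_sq h0,
      ENNReal.sum_ne_top.2 fun a _ => lint_sq (Geo.gC_D_ne_top h0 hL a)⟩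
  have I : Inj G.M ψ (Ioi R ×ˢ Ico 0 (2 * Real.pi)) :=
    ⟨measurableSet_Ioi.prod measurableSet_Ico, fun q hq => (hP q hq.1).1.cont.self_of_nhds,
      fun q hq => (hP q hq.1).1.pm.sm.of_le (by norm_num), hi⟩
  refine lo_of_lint (R := R) (φ := fun q => φ (ψ q)) (fun q hq =>
    (cφ.continuousAt.comp (hP q hq.1).1.cont.self_of_nhds).continuousWithinAt) ?_
  have ae : Ho R =ᵐ[volume] (Ioi R ×ˢ Ico 0 (2 * Real.pi) : Set (ℝ × ℝ)) :=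
    Measure.set_prod_ae_eq (s := Ioi R) (.refl _ _) Ico_ae_eq_Icc.symm
  have cE : Continuous fun p => Real.exp (-G.S.x2.1 p / 4) :=
    ((N222.Imm.Sm.continuous G.S.x2.2).neg.div_const 4).rexp
  rw [Geo.ga, lintegral_withDensity_eq_lintegral_mul _ cE.measurable.ennreal_ofReal
    cφ.measurable.ennreal_ofReal] at fin
  have fin2 := ne_top_of_le_ne_top fin
    (setLIntegral_le_lintegral (ψ '' (Ioi R ×ˢ Ico 0 (2 * Real.pi))) _)
  rw [I.lint] at fin2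
  rw [setLIntegral_congr ae]
  refine ne_top_of_le_ne_top (ENNReal.mul_ne_top (a := ENNReal.ofReal (Real.exp 1))
    ENNReal.ofReal_ne_top fin2) ?_
  rw [← lintegral_const_mul' _ _ ENNReal.ofReal_ne_top]
  refine setLIntegral_mono' I.meas fun q hq => ?_
  obtain ⟨p, n⟩ := hP q hq.1
  obtain ⟨n1, n2⟩ := n.norm hε
  rw [Complex.norm_real, Real.norm_of_nonneg p.pos.le] at n1 n2
  have φ0 : 0 ≤ φ (ψ q) := by positivity
  have dt : 1 ≤ √(det (G.M.x ∘ ψ) q) := by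
    have := p.pm.sg_sq.symm.trans (p.sg_sq.trans p.QC_eq)
    rw [Real.one_le_sqrt, Complex.ofReal_inj.1 this]
    nlinarith [sq_nonneg (r q * d1 r q), sq_nonneg (d2 r q)]
  have x2 : G.S.x2.1 (ψ q) = q.1 ^ 2 + r q ^ 2 := by
    rw [← norm_pX_sq (Q := Q), ← p.eq.self_of_nhds, EuclideanSpace.real_norm_sq_eq]
    simp only [sq]; rw [← Geo.ev_apply, Mov.x2, map_sum]; rfl
  simp only [Pi.mul_apply]
  rw [← ENNReal.ofReal_mul (Real.exp_pos _).le, ← ENNReal.ofReal_mul (Real.sqrt_nonneg _),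
    ← ENNReal.ofReal_mul (Real.exp_pos _).le]
  refine ENNReal.ofReal_le_ofReal ?_
  have : Eg q.1 ≤ Real.exp 1 * Real.exp (-G.S.x2.1 (ψ q) / 4) := by
    rw [Eg, ← Real.exp_add, x2]; exact Real.exp_le_exp.2 (by nlinarith)
  calc _ ≤ Real.exp 1 * Real.exp (-G.S.x2.1 (ψ q) / 4) * φ (ψ q) * 1 := by
        rw [mul_one]; exact mul_le_mul_of_nonneg_right this φ0
    _ ≤ Real.exp 1 * Real.exp (-G.S.x2.1 (ψ q) / 4) * φ (ψ q) * √(det (G.M.x ∘ ψ) q) := by gcongr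
    _ = _ := by ring

end Crest.Agent.N250.Mt

end
end

-- ▼ part N250/Mc/Geo
section

/-!
# Row 250 (helper66): matching on an end of the shrinker, for any `Geo`
-/

set_option autoImplicit false
open Set Filter Topology

noncomputable section

namespace Crest.Agent.N250.Mc

open Po Mt WS Gc Cj Lp

theorem _root_.Crest.Agent.N250.Mt.Nr.mono {c : ℂ} {ε C ε' C' : ℝ} {r : ℝ × ℝ → ℂ} {z : ℝ × ℝ}
    (h : Nr c ε C r z) (h1 : ε ≤ ε') (h2 : C ≤ C') : Nr c ε' C' r z :=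
  ⟨h.1.trans h1, h.2.1.trans h1, h.2.2.1.trans h1, h.2.2.2.1.trans h2, h.2.2.2.2.1.trans h2,
    h.2.2.2.2.2.trans h2⟩

theorem j_sub {r ρ : ℝ × ℝ → ℂ} {z : ℝ × ℝ} (h : ContDiffAt ℝ 2 r z) (hρ : ContDiffAt ℝ 2 ρ z) :
    j1 (fun y => r y - ρ y) z = j1 r z - j1 ρ z ∧ j2 (fun y => r y - ρ y) z = j2 r z - j2 ρ z := by
  have e := jet_sub h hρ
  exact ⟨Prod.ext (congrFun e 0) (Prod.ext (congrFun e 1) (congrFun e 2)),
    Prod.ext (congrFun e 3) (Prod.ext (congrFun e 4) (congrFun e 5))⟩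

variable {X : Type} [TopologicalSpace X] [MeasurableSpace X] {G : Geo X} {ψ : ℝ × ℝ → X}
  {Q : N222.E (Fin 3) ≃ₗᵢ[ℝ] N222.E (Fin 3)} {r : ℝ × ℝ → ℝ} {q : ℝ × ℝ} {ε C : ℝ}

/-- the radius of the graph of `w` -/
def rG (G : Geo X) (ψ : ℝ × ℝ → X) (Q : N222.E (Fin 3) ≃ₗᵢ[ℝ] N222.E (Fin 3)) (r : ℝ × ℝ → ℝ)
    (w : G.SmC) (y : ℝ × ℝ) : ℂ := r y + w.1 (ψ y) / nom G ψ Q y

theorem cd_rG (h : Pl G ψ Q r q) (w : G.SmC) : ContDiffAt ℝ 2 (rG G ψ Q r w) q :=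
  (cd_ofReal h.sm).add (((h.pm.cd w.2).mul (h.cd_nom.inv h.nom_ne)).congr_of_eventuallyEq
    (Eventually.of_forall fun _ => div_eq_mul_inv _ _))

/-- the bound of the jet of `nom⁻¹` -/
def cN (C : ℝ) : ℝ := 2 * (cQ (C + 2) + 1) * (C + 2)

theorem bd_tau (h : Pl G ψ Q r q) (n : Nr (√2 : ℝ) ε C (fun y => (r y : ℂ)) q) (hε : ε ≤ 1 / 10) :
    Bd (cQ (C + 2) + 1) (tau G ψ Q r) q := by
  have b := n.bdQ hε (cd_ofReal h.sm)
  have e : (fun y => tau G ψ Q r y * tau G ψ Q r y) =ᶠ[𝓝 q] Qr fun y => (r y : ℂ) :=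
    h.ev.mono fun y hy => by
      simp only
      rw [← sq, hy.tau_sq, hy.pc.QC_eq]; rfl
  have d := h.cd_tau.differentiableAt (by simp)
  have e0 : ‖tau G ψ Q r q‖ * ‖tau G ψ Q r q‖ = ‖Qr (fun y => (r y : ℂ)) q‖ := by
    rw [← norm_mul]; exact congrArg _ e.self_of_nhds
  have g := n.Qr_ge hε
  rw [norm_mul] at g
  have g2 := (n.norm hε).2
  have t0 := norm_nonneg (tau G ψ Q r q)
  have t1 : 1 / 2 ≤ ‖tau G ψ Q r q‖ := by
    by_contra hc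
    nlinarith [norm_nonneg (Qr (fun y => (r y : ℂ)) q), norm_nonneg ((r q : ℂ))]
  have k : ∀ w, ‖fderiv ℝ (Qr fun y => (r y : ℂ)) q w‖ ≤ cQ (C + 2) →
      ‖fderiv ℝ (tau G ψ Q r) q w‖ ≤ cQ (C + 2) + 1 := fun w hw => by
    rw [← e.fderiv_eq, Lp.fd_mul d d, mul_comm (fderiv ℝ (tau G ψ Q r) q w), ← two_mul, norm_mul,
      norm_mul, Complex.norm_two] at hw
    nlinarith [norm_nonneg (fderiv ℝ (tau G ψ Q r) q w)]
  exact ⟨h.cd_tau.of_le one_le_two, by nlinarith [b.b0], k _ b.b1, k _ b.b2⟩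

theorem bd_nom (h : Pl G ψ Q r q) (n : Nr (√2 : ℝ) ε C (fun y => (r y : ℂ)) q) (hε : ε ≤ 1 / 10) :
    Bd (cN C) (fun y => (nom G ψ Q y)⁻¹) q :=
  ((bd_tau h n hε).mul ((n.bd hε (cd_ofReal h.sm)).1.inv (n.norm hε).1)).congr
    (h.ev.mono fun y hy => by
      simp only [tau]
      field_simp [hy.ne, hy.nom_ne])

theorem norm_fr_sq (θ a b c : ℝ) : ‖fr Q θ a b c‖ ^ 2 = a * a + b * b + c * c := by
  rw [← real_inner_self_eq_norm_sq, inner_fr]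

theorem fd_x (h : Pl G ψ Q r q) (v : ℝ × ℝ) :
    fderiv ℝ (G.M.x ∘ ψ) q v = fr Q q.2 v.1 (fderiv ℝ r q v) (r q * v.2) := by
  rw [← fd_pX (h.sm.differentiableAt (by simp))]
  exact congrArg (fun T : ℝ × ℝ →L[ℝ] N222.E (Fin 3) => T v)
    (EventuallyEq.fderiv_eq (f₁ := G.M.x ∘ ψ) h.eq)

theorem norm_cx_le (u : N222.E (Fin 3)) (a : Fin 3) : ‖cx u a‖ ≤ ‖u‖ := by
  rw [cx, Complex.norm_real]; exact PiLp.norm_apply_le u a

theorem d_le (h : Pl G ψ Q r q) (n : Nr (√2 : ℝ) ε C (fun y => (r y : ℂ)) q) (hε : ε ≤ 1 / 10)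
    (w : G.SmC) : ‖d1 (fun y => w.1 (ψ y)) q‖ ≤ 3 * ∑ a, ‖(G.SC.D a w).1 (ψ q)‖ ∧
      ‖d2 (fun y => w.1 (ψ y)) q‖ ≤ 3 * ∑ a, ‖(G.SC.D a w).1 (ψ q)‖ := by
  have k : ∀ v, ‖fderiv ℝ (G.M.x ∘ ψ) q v‖ ^ 2 ≤ 3 ^ 2 →
      ‖fderiv ℝ (fun y => w.1 (ψ y)) q v‖ ≤ 3 * ∑ a, ‖(G.SC.D a w).1 (ψ q)‖ := fun v hv => by
    rw [h.pm.fd, Finset.mul_sum]
    refine (norm_sum_le _ _).trans (Finset.sum_le_sum fun a _ => ?_)
    rw [norm_mul]
    exact mul_le_mul_of_nonneg_right ((norm_cx_le _ a).trans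
      (le_of_sq_le_sq hv (by norm_num))) (norm_nonneg _)
  have a0 := (n.norm hε).2
  have a1 := n.2.1
  have a2 := n.2.2.1
  rw [h.d1C] at a1
  rw [h.d2C] at a2
  rw [Complex.norm_real, Real.norm_eq_abs] at a0 a1 a2
  have b0 := abs_le.1 a0
  have b1 := abs_le.1 (a1.trans hε)
  have b2 := abs_le.1 (a2.trans hε)
  refine ⟨k _ ?_, k _ ?_⟩ <;> rw [fd_x h, norm_fr_sq]
  · change 1 * 1 + d1 r q * d1 r q + r q * 0 * (r q * 0) ≤ _
    nlinarith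
  · change 0 * 0 + d2 r q * d2 r q + r q * 1 * (r q * 1) ≤ _
    nlinarith

/-- the Gaussian energy density of `w / nom` -/
theorem en_le (h : Pl G ψ Q r q) (n : Nr (√2 : ℝ) ε C (fun y => (r y : ℂ)) q) (hε : ε ≤ 1 / 10)
    (w : G.SmC) {D : ℝ × ℝ → ℂ} (e : D =ᶠ[𝓝 q] fun y => w.1 (ψ y) * (nom G ψ Q y)⁻¹) :
    ‖D q‖ * (‖d1 D q‖ + ‖d2 D q‖) ≤
      (11 * cN C ^ 2 + 1) * (‖w.1 (ψ q)‖ ^ 2 + ∑ a, ‖(G.SC.D a w).1 (ψ q)‖ ^ 2) := by
  have b := bd_nom h n hε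
  obtain ⟨k1, k2⟩ := d_le h n hε w
  have dw := (h.pm.cd w.2).differentiableAt (by simp)
  have K0 := b.nn
  have k : ∀ v, ‖fderiv ℝ (fun y => w.1 (ψ y)) q v‖ ≤ 3 * ∑ a, ‖(G.SC.D a w).1 (ψ q)‖ →
      ‖fderiv ℝ (fun y => (nom G ψ Q y)⁻¹) q v‖ ≤ cN C →
      ‖fderiv ℝ D q v‖ ≤ cN C * (‖w.1 (ψ q)‖ + 3 * ∑ a, ‖(G.SC.D a w).1 (ψ q)‖) := fun v h1 h2 => by
    rw [e.fderiv_eq, Lp.fd_mul dw b.dif]
    refine (norm_add_le _ _).trans ?_
    rw [norm_mul, norm_mul]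
    have := mul_le_mul_of_nonneg_left h2 (norm_nonneg (w.1 (ψ q)))
    have := mul_le_mul h1 b.b0 (norm_nonneg _) (by positivity)
    linarith
  have h0 : ‖D q‖ ≤ cN C * ‖w.1 (ψ q)‖ := by
    rw [e.self_of_nhds, norm_mul, mul_comm]
    exact mul_le_mul_of_nonneg_right b.b0 (norm_nonneg _)
  refine (mul_le_mul h0 (add_le_add (k _ k1 b.b1) (k _ k2 b.b2)) (by positivity)
    (by positivity)).trans ?_
  simp only [Fin.sum_univ_three]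
  generalize ‖w.1 (ψ q)‖ = u, ‖(G.SC.D 0 w).1 (ψ q)‖ = a0, ‖(G.SC.D 1 w).1 (ψ q)‖ = a1,
    ‖(G.SC.D 2 w).1 (ψ q)‖ = a2, cN C = K
  have i : u * (2 * u + 6 * (a0 + a1 + a2)) ≤ 11 * (u ^ 2 + (a0 ^ 2 + a1 ^ 2 + a2 ^ 2)) := by
    nlinarith [sq_nonneg (u - a0), sq_nonneg (u - a1), sq_nonneg (u - a2), sq_nonneg a0,
      sq_nonneg a1, sq_nonneg a2]
  have := mul_le_mul_of_nonneg_left i (sq_nonneg K)
  nlinarith [sq_nonneg u, sq_nonneg a0, sq_nonneg a1, sq_nonneg a2]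

/-- the right side of the equation in the polar chart -/
def EP (G : Geo X) (ψ : ℝ × ℝ → X) (Q : N222.E (Fin 3) ≃ₗᵢ[ℝ] N222.E (Fin 3)) (s : ℝ × ℝ → ℂ)
    (q : ℝ × ℝ) : ℂ := -(nom G ψ Q q * (PRj q.1 (j1 s q) (j2 s q) / (Qr s q * s q)))

/-- **matching**: `κ` cuts the nonlinearity off (`0` for `a ≤ x`), `r₁` is the cut-off end
(`r₁ = r` for `b < x`) -/
theorem geo : ∃ ε : ℝ, 0 < ε ∧ ε ≤ 1 / 10 ∧ ∀ C : ℝ, ∃ R₁ : ℝ, ∀ R, R₁ ≤ R →
    ∀ {X : Type} [TopologicalSpace X] [MeasurableSpace X] [T2Space X] [SecondCountableTopology X]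
      [BorelSpace X] (G : Geo X) (ψ : ℝ × ℝ → X) (Q : N222.E (Fin 3) ≃ₗᵢ[ℝ] N222.E (Fin 3))
      (r : ℝ × ℝ → ℝ) (w : G.SmC) (r₁ κ : ℝ × ℝ → ℂ) (a b : ℝ),
    (∀ q : ℝ × ℝ, R ≤ q.1 → Pl G ψ Q r q ∧ Nr (√2 : ℝ) ε C (fun y => (r y : ℂ)) q ∧ Bd C κ q ∧
      ‖1 - κ q‖ + ‖κ q‖ ≤ 1) →
    (∀ x θ, R < x → ψ (x, θ + 2 * Real.pi) = ψ (x, θ)) → Per r → Per κ →
    InjOn ψ (Ioi R ×ˢ Ico 0 (2 * Real.pi)) →
    G.gC w ≠ ⊤ → G.gC (G.SC.LL w) ≠ ⊤ → (∀ q : ℝ × ℝ, a ≤ q.1 → κ q = 0) →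
    (∀ q : ℝ × ℝ, R ≤ q.1 → q.1 ≤ a → Nr (√2 : ℝ) ε C (rG G ψ Q r w) q) → Cn 2 R r₁ →
    (∀ q : ℝ × ℝ, R < q.1 → q.1 ≤ a → Nr (√2 : ℝ) ε C r₁ q ∧ PRj q.1 (j1 r₁ q) (j2 r₁ q) = 0) →
    (∀ q : ℝ × ℝ, b < q.1 → r₁ q = r q) → (∀ θ, rG G ψ Q r w (R, θ) = r₁ (R, θ)) →
    (∀ q : ℝ × ℝ, R < q.1 → ∃ u : G.SmC,
      (κ q = 1 ∨ ∀ᶠ y in 𝓝 q, u.1 (ψ y) = nom G ψ Q y * (r₁ y - r y)) ∧
      (1 - κ q) * (G.SC.LL (w - u)).1 (ψ q) = κ q * EP G ψ Q (rG G ψ Q r w) q) →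
    ∀ q : ℝ × ℝ, R ≤ q.1 → rG G ψ Q r w q = r₁ q := by
  obtain ⟨ε, h0, h1, H⟩ := match_q
  refine ⟨ε, h0, h1, fun C => ?_⟩
  obtain ⟨R₁, H⟩ := H C
  refine ⟨R₁, fun R hR X _ _ _ _ _ G ψ Q r w r₁ κ a b hP pψ pr pκ inj g0 g1 κ0 n2 c1 n1 far bd eq => ?_⟩
  have k0 : ∀ q : ℝ × ℝ, a < q.1 → κ =ᶠ[𝓝 q] 0 := fun q hq => by
    filter_upwards [(isOpen_half a).mem_nhds hq] with y hy using κ0 y (le_of_lt hy)
  have s1 : ∀ q : ℝ × ℝ, R < q.1 → ContDiffAt ℝ 2 r₁ q := fun q hq =>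
    c1.op.contDiffAt ((isOpen_half R).mem_nhds hq)
  refine H R hR (fun y => (r y : ℂ)) r₁ (rG G ψ Q r w) κ (fun q hq => ?_) (fun x θ hx => ?_) c1
    (fun q hq => ?_) bd ?_ fun q hq => ?_
  · obtain ⟨p, n, k1, k2⟩ := hP q hq
    exact ⟨cd_ofReal p.sm, cd_rG p w, k1, k2, n,
      (le_or_gt q.1 a).symm.imp (k0 q) (n2 q hq)⟩
  · refine ⟨by rw [pr x θ], ?_, pκ x θ⟩
    simp only [rG, nom, pr x θ, pψ x θ hx, frC, Real.cos_add_two_pi, Real.sin_add_two_pi, dot]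
  · exact (le_or_gt q.1 a).symm.imp (k0 q) (n1 q hq)
  · refine (lo_geo (fun q hq => ⟨(hP q hq.le).1, (hP q hq.le).2.1⟩) h1 inj g0 g1).mono
      (R := max R b) (c := 11 * cN C ^ 2 + 1) (by positivity) fun q hq => ?_
    have q1 : R < q.1 := (le_max_left _ _).trans_lt hq.1
    have q2 : b < q.1 := (le_max_right _ _).trans_lt hq.1
    obtain ⟨p, n, -⟩ := hP q q1.le
    have e := (j_sub (cd_rG p w) (s1 q q1)).1
    have e1 : d1 (rG G ψ Q r w) q - d1 r₁ q = _ := (congrArg (·.2.1) e).symm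
    have e2 : d2 (rG G ψ Q r w) q - d2 r₁ q = _ := (congrArg (·.2.2) e).symm
    rw [e1, e2]
    refine en_le p n h1 w (D := fun y => rG G ψ Q r w y - r₁ y) ?_
    filter_upwards [(isOpen_half b).mem_nhds q2] with y hy
    rw [far y hy, rG, add_sub_cancel_left, div_eq_mul_inv]
  · obtain ⟨u, hu, e⟩ := eq q hq
    obtain ⟨p, -⟩ := hP q hq.le
    refine mul_left_cancel₀ p.nom_ne ?_
    rw [EP] at e
    rcases hu with hu | hu
    · rw [hu] at e ⊢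
      linear_combination e
    · have c := cd_rG p w
      rw [LL_pol p (w - u) (c.sub (s1 q hq)) ?_, (j_sub c (s1 q hq)).1, (j_sub c (s1 q hq)).2] at e
      · linear_combination e
      · filter_upwards [hu, p.ev] with y h2 h3
        change w.1 (ψ y) - u.1 (ψ y) = _
        rw [h2, rG]
        field_simp [h3.nom_ne]
        ring

end Crest.Agent.N250.Mc

end
end

-- ▼ part N250/Mc/Defs
section

/-!
# Row 250 (helper66): matching, the two radii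
-/

set_option autoImplicit false
open Crest.GeometryTopology.MCF

noncomputable section

namespace Crest.Agent.N250.R0.St

open Wr B1

variable {S : Mv} (T : St S)

/-- the cut-off end -/
def r1 (j : Fin T.p) (z : Par T.ℓ) (q : ℝ × ℝ) : ℂ :=
  T.rS j q + ((1 - st (T.R + 1 / 3) (T.R + 2 / 3) q.1 : ℝ) : ℂ) *
    ((2 * T.vU z q) ^ (1 / 2 : ℂ) - T.rS j q)

/-- the cut-off `χ'` in the chart -/
def k1 (q : ℝ × ℝ) : ℂ := ((1 - st (T.R + 1 / 10) (T.R + 1 / 5) q.1 : ℝ) : ℂ)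

end Crest.Agent.N250.R0.St

end
end

-- ▼ part N250/Me/End
section

/-! # Row 250 (helper65): the end side of the matching -/

set_option autoImplicit false

open Set Filter Topology Complex

noncomputable section

namespace Crest.Agent.N250.Me

open B1 Po Mt

variable {ℓ : Ell} {R K g g' ε e δ : ℝ} {z : Par ℓ} {J : Jt ℓ}

/-- the radius of the end -/
def rU (R : ℝ) (z : Par ℓ) (J : Jt ℓ) (q : ℝ × ℝ) : ℂ := (2 * B1.vS R z J q) ^ (1 / 2 : ℂ)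

theorem rU_sq (q : ℝ × ℝ) : B1.vS R z J q = rU R z J q ^ 2 / 2 := by rw [rU, HJ.sqrt_sq]; ring

theorem rU_per (x θ : ℝ) : rU R z J (x, θ + 2 * Real.pi) = rU R z J (x, θ) := by
  rw [rU, rU, vS_per]

theorem cd_half {v : ℂ} (h : v ∈ slitPlane) : ContDiffAt ℝ 2 (fun w : ℂ => w ^ (1 / 2 : ℂ)) v := by
  have h1 : ContDiffAt ℂ 2 (fun w : ℂ => w ^ (1 / 2 : ℂ)) v :=
    (DifferentiableOn.contDiffOn (fun w hw => (differentiableAt_id.cpow_const hw).differentiableWithinAt)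
      isOpen_slitPlane).contDiffAt (isOpen_slitPlane.mem_nhds h)
  exact h1.restrict_scalars ℝ

/-- `C²` up to the boundary -/
theorem rU_c2 (hj : IsJet (dgam R z.1) J) (h2 : ∀ s θ, 2 * vj R z.1 z.2.1 J s θ 0 ∈ slitPlane) :
    ContDiffOn ℝ 2 (rU R z J) (Icc R (R + 1) ×ˢ univ) := fun y hy =>
  ContDiffAt.comp_contDiffWithinAt (g := fun w : ℂ => w ^ (1 / 2 : ℂ))
    (f := fun q => 2 * B1.vS R z J q) y (cd_half (h2 _ _))
    (contDiffWithinAt_const.mul (vS_c2 hj y hy))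

theorem xW_le {X x : ℝ} {a : ℂ} (p : Rg.Pt K X a x) (hg : Ex g g') : x * W g g' a x ≤ 6 := by
  obtain ⟨g1, g2, g3⟩ := Rg.Ex.bounds hg
  have hx := p.x_pos
  have h1 : x ^ (-g) ≤ x ^ (-1 : ℝ) :=
    Real.rpow_le_rpow_of_exponent_le (by linarith [p.x2]) (by linarith)
  rw [Real.rpow_neg_one] at h1
  have h2 : ‖et a x‖ ^ g' ≤ (9 / 4 : ℝ) ^ (2 : ℝ) :=
    (Real.rpow_le_rpow (norm_nonneg _) p.norm_le (by linarith)).trans
      (Real.rpow_le_rpow_of_exponent_le (by norm_num) g3)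
  rw [Real.rpow_two] at h2
  have h3 := mul_le_mul h1 h2 (Real.rpow_nonneg (norm_nonneg _) _) (by positivity)
  calc x * W g g' a x ≤ x * (x⁻¹ * (9 / 4) ^ 2) := mul_le_mul_of_nonneg_left h3 hx.le
    _ ≤ 6 := by rw [← mul_assoc, mul_inv_cancel₀ hx.ne']; norm_num

/-- all components of a jet in the ball are small -/
theorem val_le6 (c : Sz R K g g' e) (h : Sl R K g g' ε e z J) (s : II) (θ : ℝ) (k : Fin 6) :
    ‖val (J k) s θ‖ ≤ e * 6 := by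
  obtain ⟨g1, g2, g3⟩ := Rg.Ex.bounds c.ex
  have p := h.pt c s
  have hx := p.x2
  have hn := p.norm_pos
  have hW := p.W_pos g g'
  have h1 := xW_le p c.ex
  have h2 : W g g' z.2.1 (xr R z.1.re s) ≤ 6 := by nlinarith
  have h3 : (xr R z.1.re s)⁻¹ ≤ 1 := inv_le_one_of_one_le₀ (by linarith)
  have h4 := p.W_div_le g1 g2 g3
  have h5 : W g g' z.2.1 (xr R z.1.re s) / ‖et z.2.1 (xr R z.1.re s)‖ ≤ 6 := by
    rw [div_le_iff₀ hn]
    nlinarith [p.W_le_sq g1 g2 g3, p.norm_le]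
  fin_cases k
  · exact Rg.val_le h.inb.b0 s θ p.rho_pos hW (Or.inl (by linarith [p.rho_le_one])) h2
  · exact Rg.val_le h.inb.b1 s θ (by positivity) (by positivity) (Or.inl (by linarith))
      (by linarith)
  · exact Rg.val_le h.inb.b2 s θ one_pos (by positivity) (Or.inl (by norm_num)) h5
  · exact Rg.val_le h.inb.b3 s θ one_pos hW (Or.inl (by norm_num)) h2
  · exact Rg.val_le h.inb.b4 s θ one_pos (by positivity) (Or.inl (by norm_num)) h1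
  · exact Rg.val_le h.inb.b5 s θ one_pos hW (Or.inl (by norm_num)) h2

/-- the jet of `v - 1` on the strip -/
theorem vk_le (c : Sz R K g g' e) (h : Sl R K g g' ε e z J) (he : e ≤ δ)
    (ha : ‖z.2.1‖ * (R + 1) ^ 2 ≤ δ) {q : ℝ × ℝ} (hq : q.1 ∈ Icc R (R + 1)) :
    ‖vk R z.1 z.2.1 J (tS R) 0 q - 1‖ ≤ 7 * δ ∧
      ∀ k : Fin 6, k ≠ 0 → ‖vk R z.1 z.2.1 J (tS R) k q‖ ≤ 7 * δ := by
  have v := val_le6 c h (tS R q.1) q.2
  have hg := (rd_strip R z.1).gam q.1 hq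
  have hR := c.hR
  have hx1 := hq.1
  have hx2 := hq.2
  have ha0 := norm_nonneg z.2.1
  have hδ : 0 ≤ δ := le_trans (by positivity) ha
  have a1 : ‖z.2.1 * ((q.1 : ℂ) ^ 2 - 2) / 2‖ ≤ δ := by
    rw [show ((q.1 : ℂ) ^ 2 - 2) = ((q.1 ^ 2 - 2 : ℝ) : ℂ) by push_cast; ring, norm_div, norm_mul,
      Complex.norm_real, Complex.norm_two, Real.norm_of_nonneg (by nlinarith)]
    have : ‖z.2.1‖ * (q.1 ^ 2 - 2) ≤ ‖z.2.1‖ * (R + 1) ^ 2 :=
      mul_le_mul_of_nonneg_left (by nlinarith) ha0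
    linarith
  have a2 : ‖z.2.1 * (q.1 : ℂ)‖ ≤ δ := by
    rw [norm_mul, Complex.norm_real, Real.norm_of_nonneg (by linarith)]
    exact le_trans (mul_le_mul_of_nonneg_left (by nlinarith) ha0) ha
  have a3 : ‖z.2.1‖ ≤ δ := le_trans (le_mul_of_one_le_right ha0 (by nlinarith)) ha
  refine ⟨?_, fun k hk => ?_⟩
  · have e : vk R z.1 z.2.1 J (tS R) 0 q - 1 =
        z.2.1 * ((q.1 : ℂ) ^ 2 - 2) / 2 + val (J 0) (tS R q.1) q.2 := by
      simp only [vk, vj, hg, et, Matrix.cons_val_zero]; ring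
    rw [e]
    linarith [norm_add_le (z.2.1 * ((q.1 : ℂ) ^ 2 - 2) / 2) (val (J 0) (tS R q.1) q.2), v 0]
  · fin_cases k
    · exact absurd rfl hk
    · have e : vk R z.1 z.2.1 J (tS R) 1 q = z.2.1 * (q.1 : ℂ) + val (J 1) (tS R q.1) q.2 := by
        simp [vk, vj, hg]
      refine (congrArg norm e).trans_le ((norm_add_le _ _).trans ?_)
      linarith [v 1]
    · have e : vk R z.1 z.2.1 J (tS R) 2 q = z.2.1 + val (J 2) (tS R q.1) q.2 := by simp [vk, vj]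
      refine (congrArg norm e).trans_le ((norm_add_le _ _).trans ?_)
      linarith [v 2]
    · exact (v 3).trans (by linarith)
    · exact (v 4).trans (by linarith)
    · exact (v 5).trans (by linarith)

theorem sqrt_near {v : ℂ} : ‖(2 * v) ^ (1 / 2 : ℂ) - (√2 : ℝ)‖ ≤ 2 * ‖v - 1‖ := by
  set s := (2 * v) ^ (1 / 2 : ℂ)
  have h1 : s ^ 2 = 2 * v := HJ.sqrt_sq _
  have h2 : 0 ≤ s.re := HJ.sqrt_re_nonneg _
  have h3 : 1 ≤ ‖s + (√2 : ℝ)‖ := by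
    refine le_trans ?_ (re_le_norm _)
    rw [add_re, ofReal_re]; linarith [sq2.1]
  have h4 : (s - (√2 : ℝ)) * (s + (√2 : ℝ)) = 2 * (v - 1) := by linear_combination h1 - s2
  have h5 := congrArg norm h4
  rw [norm_mul, norm_mul, Complex.norm_two] at h5
  nlinarith [norm_nonneg (s - (√2 : ℝ))]

/-- **the end is close to the cylinder and solves the equation** on the open strip -/
theorem rU_nr (c : Sz R K g g' e) (h : Sl R K g g' ε e z J) (he : e ≤ δ) (hδ : δ ≤ 1 / 140)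
    (ha : ‖z.2.1‖ * (R + 1) ^ 2 ≤ δ) (h2 : ∀ s θ, 2 * vj R z.1 z.2.1 J s θ 0 ∈ slitPlane)
    {q : ℝ × ℝ} (h0 : R < q.1) (h1 : q.1 < R + 1) :
    ContDiffAt ℝ 2 (rU R z J) q ∧ Nr (√2 : ℝ) (14 * δ) 1 (rU R z J) q ∧
      PRj q.1 (j1 (rU R z J) q) (j2 (rU R z J) q) = 0 := by
  have n : Icc R (R + 1) ∈ 𝓝 q.1 := Icc_mem_nhds h0 h1
  have cd : ContDiffAt ℝ 2 (rU R z J) q :=
    (rU_c2 h.sol.jet h2).contDiffAt (prod_mem_nhds n univ_mem)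
  have df := cd.differentiableAt (by simp)
  obtain ⟨b0, b⟩ := vk_le c h he ha (mem_of_mem_nhds n)
  have r := rd_strip R z.1
  have e1 : d1 (B1.vS R z J) q = _ := h.sol.jet.d1_0 r n (ContinuousLinearMap.id ℝ ℂ)
  have e3 : d2 (B1.vS R z J) q = _ := h.sol.jet.d2_0 r n (ContinuousLinearMap.id ℝ ℂ)
  have e2 : d1 (d1 (B1.vS R z J)) q = _ := h.sol.jet.d11 r n (ContinuousLinearMap.id ℝ ℂ)
  have e4 : d1 (d2 (B1.vS R z J)) q = _ := h.sol.jet.d12 r n (ContinuousLinearMap.id ℝ ℂ)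
  have e5 : d2 (d2 (B1.vS R z J)) q = _ := h.sol.jet.d22 r n (ContinuousLinearMap.id ℝ ℂ)
  have hE : Cj.ELC (B1.vS R z J) q = 0 := by
    rw [Cj.ELC, e1, e3, e2, e4, e5, ← r.gam q.1 (mem_of_mem_nhds n)]; exact h.sol.eq _ _
  have hv : ∀ᶠ y in 𝓝 q, B1.vS R z J y = rU R z J y ^ 2 / 2 := .of_forall rU_sq
  have hδ0 : 0 ≤ δ := le_trans (by positivity) ha
  have n0 : ‖rU R z J q - (√2 : ℝ)‖ ≤ 14 * δ :=
    sqrt_near.trans (by change 2 * ‖vk R z.1 z.2.1 J (tS R) 0 q - 1‖ ≤ _; linarith)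
  have n1 : 1 ≤ ‖rU R z J q‖ := by
    have := abs_le.1 ((abs_norm_sub_norm_le _ _).trans n0)
    rw [Complex.norm_real, Real.norm_of_nonneg (Real.sqrt_nonneg _)] at this
    linarith [sq2.1, this.1]
  have k1 : ∀ {u v : ℂ}, v = rU R z J q * u → ‖v‖ ≤ 7 * δ → ‖u‖ ≤ 7 * δ := fun {u v} e hv => by
    rw [e, norm_mul] at hv; nlinarith [norm_nonneg u]
  have f1 : ‖d1 (rU R z J) q‖ ≤ 7 * δ := k1 (e1.symm.trans (Cj.fd_vC df hv _)) (b 1 (by decide))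
  have f2 : ‖d2 (rU R z J) q‖ ≤ 7 * δ := k1 (e3.symm.trans (Cj.fd_vC df hv _)) (b 3 (by decide))
  have k2 : ∀ {u v s t : ℂ}, v = rU R z J q * u + s * t → ‖v‖ ≤ 7 * δ → ‖s‖ ≤ 7 * δ →
      ‖t‖ ≤ 7 * δ → ‖u‖ ≤ 1 := fun {u v s t} e hv hs ht => by
    have a1 : ‖rU R z J q * u‖ ≤ ‖v‖ + ‖s * t‖ := by
      rw [show rU R z J q * u = v - s * t by rw [e]; ring]; exact norm_sub_le _ _
    rw [norm_mul, norm_mul] at a1
    have a2 : ‖s‖ * ‖t‖ ≤ 7 * δ * (7 * δ) := mul_le_mul hs ht (norm_nonneg _) (by positivity)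
    nlinarith [norm_nonneg u]
  have nr : Nr (√2 : ℝ) (14 * δ) 1 (rU R z J) q :=
    ⟨n0, by linarith, by linarith,
      k2 (e2.symm.trans (Cj.fd2_vC cd hv _ _)) (b 2 (by decide)) f1 f1,
      k2 (e4.symm.trans (Cj.fd2_vC cd hv _ _)) (b 4 (by decide)) f1 f2,
      k2 (e5.symm.trans (Cj.fd2_vC cd hv _ _)) (b 5 (by decide)) f2 f2⟩
  have hQ := nr.Qr_ge (by linarith)
  refine ⟨cd, nr, PRj_zero cd (norm_pos_iff.1 (by linarith)) (fun h0 => ?_) hv hE⟩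
  rw [h0, zero_mul, norm_zero] at hQ
  linarith

/-- the comparison function `r₀ + χ (r_U - r₀)` -/
def r1 (r₀ χ s : ℝ × ℝ → ℂ) (q : ℝ × ℝ) : ℂ := r₀ q + χ q * (s q - r₀ q)

theorem cn_r1 {r₀ χ s : ℝ × ℝ → ℂ} {b : ℝ} (hb : b < R + 1)
    (hs : ContDiffOn ℝ 2 s (Icc R (R + 1) ×ˢ univ))
    (h : ∀ q : ℝ × ℝ, R ≤ q.1 → ContDiffAt ℝ 2 r₀ q ∧ ContDiffAt ℝ 2 χ q)
    (h0 : ∀ q : ℝ × ℝ, b < q.1 → χ q = 0)
    (hp : ∀ x θ, R < x → r₀ (x, θ + 2 * Real.pi) = r₀ (x, θ) ∧ χ (x, θ + 2 * Real.pi) = χ (x, θ) ∧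
      s (x, θ + 2 * Real.pi) = s (x, θ)) : Cn 2 R (r1 r₀ χ s) := by
  have key : ContDiffOn ℝ 2 (r1 r₀ χ s) {q | R ≤ q.1} := fun q hq => by
    rcases lt_or_ge b q.1 with hx | hx
    · refine ((h q hq).1.congr_of_eventuallyEq ?_).contDiffWithinAt
      filter_upwards [(isOpen_half b).mem_nhds hx] with y hy
      rw [r1, h0 y hy, zero_mul, add_zero]
    · have h1 : ContDiffWithinAt ℝ 2 s {q : ℝ × ℝ | R ≤ q.1} q := by
        refine (hs q ⟨⟨hq, by linarith⟩, trivial⟩).mono_of_mem_nhdsWithin ?_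
        filter_upwards [self_mem_nhdsWithin, mem_nhdsWithin_of_mem_nhds
          ((isOpen_lt continuous_fst continuous_const).mem_nhds
            (show q.1 < R + 1 by linarith))] with y hy hy'
        exact ⟨⟨hy, le_of_lt hy'⟩, trivial⟩
      exact (h q hq).1.contDiffWithinAt.add ((h q hq).2.contDiffWithinAt.mul
        (h1.sub (h q hq).1.contDiffWithinAt))
  exact ⟨key.of_le (by norm_num), key.mono fun q hq => le_of_lt (α := ℝ) hq, fun x θ hx => by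
    simp only [r1, (hp x θ hx).1, (hp x θ hx).2.1, (hp x θ hx).2.2]⟩

theorem r1_eq {r₀ χ s : ℝ × ℝ → ℂ} {q : ℝ × ℝ} (h : χ q = 1) : r1 r₀ χ s q = s q := by
  rw [r1, h]; ring

theorem j_congr {f f' : ℝ × ℝ → ℂ} {q : ℝ × ℝ} (h : f =ᶠ[𝓝 q] f') :
    j1 f q = j1 f' q ∧ j2 f q = j2 f' q := by
  have a1 : d1 f =ᶠ[𝓝 q] d1 f' := h.eventually_nhds.mono fun y hy => by
    rw [d1, d1, EventuallyEq.fderiv_eq hy]
  have a2 : d2 f =ᶠ[𝓝 q] d2 f' := h.eventually_nhds.mono fun y hy => by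
    rw [d2, d2, EventuallyEq.fderiv_eq hy]
  refine ⟨by rw [j1, j1, h.self_of_nhds, a1.self_of_nhds, a2.self_of_nhds], ?_⟩
  simp only [j2]
  rw [d1, a1.fderiv_eq, d1, a2.fderiv_eq, d2, a2.fderiv_eq]
  rfl

theorem nr_congr {f f' : ℝ × ℝ → ℂ} {q : ℝ × ℝ} {c : ℂ} {t C : ℝ} (h : f =ᶠ[𝓝 q] f')
    (n : Nr c t C f' q) : Nr c t C f q := by
  obtain ⟨a, b⟩ := j_congr h
  simp only [j1, j2, Prod.mk.injEq] at a b
  simpa only [Nr, a.1, a.2.1, a.2.2, b.1, b.2.1, b.2.2] using n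

theorem nr_mono {f : ℝ × ℝ → ℂ} {q : ℝ × ℝ} {c : ℂ} {t C t' C' : ℝ} (n : Nr c t C f q)
    (ht : t ≤ t') (hC : C ≤ C') : Nr c t' C' f q :=
  ⟨n.1.trans ht, n.2.1.trans ht, n.2.2.1.trans ht, n.2.2.2.1.trans hC, n.2.2.2.2.1.trans hC,
    n.2.2.2.2.2.trans hC⟩

theorem fc_val (u : Wi (om ℓ)) (s : II) (m : ℤ) : Ra.fc (val u s) m = Wi.co u m s := by
  have h := Wi.integral_syn u m
  have h2 := (ContinuousMap.evalCLM ℂ s).intervalIntegral_comp_comm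
    (((Wi.continuous_ex (-m)).fun_smul (Wi.continuous_syn u)).intervalIntegrable
      (μ := MeasureTheory.volume) 0 (2 * Real.pi))
  rw [h] at h2
  have h3 : ((2 * Real.pi : ℝ) : ℂ) ≠ 0 := by exact_mod_cast Real.two_pi_pos.ne'
  have h4 : ∫ θ in (0 : ℝ)..2 * Real.pi, Wi.ex (-m) θ * val u s θ =
      ((2 * Real.pi : ℝ) : ℂ) * Wi.co u m s := by simpa [val] using h2
  rw [Ra.fc, h4, inv_mul_cancel_left₀ h3]

/-- **the trace**: the datum and the three slow modes determine `v(R, ·)` -/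
theorem trace (hbc : BC z.2.2 J) {v v₀ : ℝ → ℂ} (c0 : Continuous v₀)
    (hb : ∀ θ, Wi.syn z.2.2.1 θ = v θ - 1)
    (hm : ∀ i : Fin 3, Ra.fc (fun θ => v θ - v₀ θ) ((i : ℤ) - 1) =
      Ra.fc (fun θ => B1.vS R z J (R, θ) - v₀ θ) ((i : ℤ) - 1)) (θ : ℝ) :
    v θ = B1.vS R z J (R, θ) := by
  have ev : v = fun θ => Wi.syn z.2.2.1 θ + 1 := funext fun θ => by rw [hb]; ring
  have t0 : tS R R = i0 := Subtype.ext (by rw [tS_coe ⟨le_rfl, by linarith⟩]; simp [i0])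
  have eU : ∀ θ, B1.vS R z J (R, θ) = et z.2.1 R + val (J 0) i0 θ := fun θ => by
    rw [vS_eq z J (y := (R, θ)) ⟨le_rfl, by linarith⟩, t0]
  have cv : Continuous v := by rw [ev]; exact (Wi.continuous_syn _).add continuous_const
  have cw : Continuous (val (J 0) i0) :=
    (ContinuousMap.evalCLM ℂ i0).continuous.comp (Wi.continuous_syn (J 0))
  have cU : Continuous fun θ => B1.vS R z J (R, θ) := by
    simp only [eU]; exact continuous_const.add cw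
  have z0 : ∀ m : ℤ, Ra.fc (fun θ => v θ - B1.vS R z J (R, θ)) m = 0 := fun m => by
    by_cases hm2 : 2 ≤ |m|
    · have e : (fun θ => v θ - B1.vS R z J (R, θ)) = fun θ =>
          Wi.syn (z.2.2.1 + Wi.single _ 0 (1 - et z.2.1 R)) θ - val (J 0) i0 θ := funext fun θ => by
        rw [eU, Wi.syn_add, Wi.syn_single, hb]; simp; ring
      rw [e, Ra.fc_sub (Wi.continuous_syn _) cw, Ec.fc_syn, fc_val, hbc.inner m hm2, Wi.co_add,
        Wi.co_single_ne (by rintro rfl; simp at hm2)]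
      simp
    · have e : (fun θ => v θ - B1.vS R z J (R, θ)) =
          fun θ => (v θ - v₀ θ) - (B1.vS R z J (R, θ) - v₀ θ) := funext fun θ => by ring
      rw [e, Ra.fc_sub (cv.fun_sub c0) (cU.fun_sub c0), sub_eq_zero]
      have h3 : -2 < m ∧ m < 2 := abs_lt.1 (not_le.1 hm2)
      have := hm ⟨(m + 1).toNat, by omega⟩
      rwa [show (((⟨(m + 1).toNat, by omega⟩ : Fin 3) : ℕ) : ℤ) - 1 = m by simp only; omega] at this
  have hp : Function.Periodic (fun θ => v θ - B1.vS R z J (R, θ)) (2 * Real.pi) := fun θ => by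
    simp only [ev, Wi.syn_periodic, vS_per]
  have hs := Ra.fc_hasSum hp (cv.fun_sub cU) (by rw [funext z0]; exact summable_zero) θ
  simp only [z0, zero_mul] at hs
  exact sub_eq_zero.1 (hs.unique hasSum_zero)

end Crest.Agent.N250.Me
end
end

-- ▼ part N250/Mc/Eq

/-!
# Row 250 (helper30): the core equation holds off the tubes beyond `R + 1/3` once the core matches
the ends
-/

set_option autoImplicit false
open Set Filter Topology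
open scoped InnerProductSpace
open Crest.GeometryTopology.MCF

noncomputable section

namespace Crest.Agent.N250.Mq

open WS Wr B1 Gc Cj R0

variable {S : Mv} {T : St S} {j : Fin T.p} {q : ℝ × ℝ}

theorem stat (T : St S) : S.Static := T.P.shr.st

theorem psi_eq (hq : T.e.R < q.1) : T.ψ j q = Ec.psi T.e j q :=
  Subtype.ext ((T.hψ j q hq).trans (Ec.psi_val hq).symm)

theorem ev_gt {a : ℝ} (hq : a < q.1) : ∀ᶠ y : ℝ × ℝ in 𝓝 q, a < y.1 :=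
  (Ec.isOpen_half a).mem_nhds hq

theorem ca_psi (hq : T.e.R < q.1) : ContinuousAt (T.ψ j) q :=
  (Ec.ca_psi hq).congr ((ev_gt hq).mono fun _ hy => (psi_eq hy).symm)

theorem pl (hq : T.e.R < q.1) : Lp.Pl T.G (T.ψ j) (T.e.Q j) (T.e.r j) q :=
  ⟨(ev_gt hq).mono fun _ hy => ca_psi hy, (Ec.cd_r hq).of_le (WithTop.coe_le_coe.2 (le_top : (2 : ℕ∞) ≤ ⊤)),
    Ec.r_pos _ _ hq, (ev_gt hq).mono fun y hy => T.hψ j y hy⟩

theorem det_pos (hq : T.e.R < q.1) : 0 < Po.det (T.G.M.x ∘ T.ψ j) q := by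
  have h := (pl (j := j) hq).pm.sg_sq.symm.trans ((pl hq).sg_sq.trans (pl hq).QC_eq)
  have := Ec.r_pos T.e j hq
  rw [Complex.ofReal_inj.1 h]
  positivity

theorem inj_psi {I : Set ℝ} (hI : I ⊆ Ioi T.e.R) :
    InjOn (T.ψ j) (I ×ˢ Ico 0 (2 * Real.pi)) := fun x hx y hy h => by
  have hp : Po.Per fun z : ℝ × ℝ => (z.1, toIcoMod Real.two_pi_pos 0 z.2) := fun s θ => by
    simp only [toIcoMod_add_right]
  have h1 := Ec.crd_psi (j := j) hp (hI hx.1)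
  rw [← psi_eq (hI hx.1), h, psi_eq (hI hy.1), Ec.crd_psi hp (hI hy.1),
    (toIcoMod_eq_self _).2 (by simpa using hy.2), (toIcoMod_eq_self _).2 (by simpa using hx.2)] at h1
  exact h1.symm

theorem zone (j : Fin T.p) {a b : ℝ} (ha : T.R ≤ a) (hab : a ≤ b) (hb : b ≤ T.R + 1) :
    Fv.Zone T.G (T.ψ j) T.R a b :=
  have h : ∀ x ∈ Ioo a b, T.e.R < x := fun x hx => by linarith [T.hR, hx.1]
  ⟨ha, hab, hb, fun q hq => (pl (h _ hq)).pm, fun q hq => det_pos (h _ hq), inj_psi h⟩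

theorem psi_tube {a : ℝ} (hq : T.e.R < q.1) (ha : a < q.1) :
    ((T.ψ j q : E), (0 : ℝ)) ∈ tube T.e j a := by rw [psi_eq hq]; exact Ec.psi_tube hq ha

theorem cu_psi (hq : T.e.R < q.1) (a b : ℝ) :
    (T.cu j a b).1 (T.ψ j q) = st (T.R + a) (T.R + b) q.1 := by
  rw [psi_eq hq]; exact Ec.chi_psi hq _ _

theorem cu_psi_ne {i : Fin T.p} (hi : i ≠ j) (hq : T.e.R < q.1) {a b : ℝ} (ha : -7 < a)
    (hab : a < b) : (T.cu i a b).1 (T.ψ j q) = 0 := by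
  rw [psi_eq hq]
  exact Ec.chi_psi_ne (stat T) hi (by linarith [T.hR]) (by linarith) hq


theorem ip_psi (hq : T.e.R < q.1) :
    ((⟪S.n ((T.ψ j q : E), 0), wv T.e j (T.ψ j q)⟫_ℝ : ℝ) : ℂ) = T.nu j q * T.rS j q := by
  have : (T.e.r j q : ℂ) ≠ 0 := by exact_mod_cast (Ec.r_pos T.e j hq).ne'
  rw [St.nu, St.rS, T.hψ j q hq, Complex.ofReal_div, div_mul_cancel₀ _ this]

theorem nu_ne (hq : T.R - 6 < q.1) : T.nu j q ≠ 0 := fun h => by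
  have h0 : T.e.R < q.1 := by linarith [T.hR]
  have h1 := T.nu_ge j _ (psi_tube h0 hq)
  have h2 := ip_psi (j := j) h0
  rw [h, zero_mul, Complex.ofReal_eq_zero] at h2
  rw [h2] at h1
  norm_num at h1

/-- the transversal field in the polar frame -/
theorem Z_psi (hq : T.R - 5 < q.1) (c : Fin 3) :
    ((T.Z c).1 (T.ψ j q) : ℂ) = frC (fQ (T.e.Q j)) q.2 0 (T.nu j q)⁻¹ 0 c := by
  have h0 : T.e.R < q.1 := by linarith [T.hR]
  have h1 : (T.e.r j q : ℂ) ≠ 0 := by exact_mod_cast (Ec.r_pos T.e j h0).ne'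
  have h2 := nu_ne (j := j) (q := q) (by linarith)
  have h3 : ((wv T.e j (T.ψ j q) c : ℝ) : ℂ) = frC (fQ (T.e.Q j)) q.2 0 (T.e.r j q) 0 c := by
    have := congrFun (cx_fr (T.e.Q j) q.2 0 (T.e.r j q) 0) c
    rw [← Ec.wv_psi h0, ← psi_eq h0, Complex.ofReal_zero] at this
    exact this
  rw [T.Zr j _ (psi_tube h0 hq), Complex.ofReal_div, ip_psi h0, h3, St.rS, div_eq_inv_mul, smul_frC]
  simp only [mul_zero]
  congr 1
  field_simp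

theorem x_psi (hq : T.e.R < q.1) (c : Fin 3) :
    ((T.G.S.x c).1 (T.ψ j q) : ℂ) = frC (fQ (T.e.Q j)) q.2 q.1 (T.rS j q) 0 c :=
  congrFun (pl hq).pb_x.self_of_nhds c

variable {F : Fa T} {σ : Scale T.G}

theorem mv_psi (hq : T.R - 1 ≤ q.1) (M : Nq.Mt (Fin T.p)) (u : Fin 3 → T.G.R) (c : Fin 3) :
    (F.D.mv M u c).1 (T.ψ j q) = ∑ d, M j c d * ((u d).1 (T.ψ j q) : ℂ) := by
  have h0 : T.e.R < q.1 := by linarith [T.hR]
  have e : ∀ i d, ev T.G (T.ψ j q) (M i c d • T.G.oR (T.χr i * u d)) =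
      M i c d * (((T.χr i).1 (T.ψ j q) * (u d).1 (T.ψ j q) : ℝ) : ℂ) := fun _ _ => rfl
  change ev T.G _ (∑ i, ∑ d, M i c d • T.G.oR (T.χr i * u d)) = _
  simp only [map_sum, e]
  rw [Finset.sum_eq_single j (fun i _ hi => by
    simp [cu_psi_ne hi h0 (show (-7 : ℝ) < -3 / 2 by norm_num) (show (-3 / 2 : ℝ) < -1 by norm_num)])
    (by simp), cu_psi h0, st_one (by linarith) (by linarith)]
  simp

/-- the rotated transversal field in the rotated frame -/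
theorem VV_psi (hq : T.R - 1 ≤ q.1) (β : T.Bt) : val (F.D.VV (T.TT β)) (T.ψ j q) =
    frC (fR (T.e.Q j) fun i => β (j, i)) q.2 0 (T.nu j q)⁻¹ 0 := by
  funext c
  have h1 := Ro.TT_frC (β := fun i => β (j, i)) (θ := q.2) (on_fQ (T.e.Q j)) 0 (T.nu j q)⁻¹ 0 c
  refine Eq.trans ?_ h1
  change ((T.Z c).1 (T.ψ j q) : ℂ) + (F.D.mv (T.TT β) T.Z c).1 (T.ψ j q) = _
  simp only [mv_psi hq, Z_psi (show T.R - 5 < q.1 by linarith)]
  rfl

/-- the surface is a polar graph in the rotated frame -/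
theorem pb_Xh (hq : T.R - 1 ≤ q.1) (u : T.G.SmC) (β : T.Bt) :
    pb (F.D.Xh u (T.TT β)) (T.ψ j) q = pC (fR (T.e.Q j) fun i => β (j, i)) (T.rW j u) q := by
  have h0 : T.e.R < q.1 := by linarith [T.hR]
  funext c
  have h1 := Ro.TT_frC (β := fun i => β (j, i)) (θ := q.2) (on_fQ (T.e.Q j)) q.1 (T.rS j q) 0 c
  change ((T.G.S.x c).1 (T.ψ j q) : ℂ) + ((F.D.mv (T.TT β) T.G.S.x c).1 (T.ψ j q) +
    u.1 (T.ψ j q) * val (F.D.VV (T.TT β)) (T.ψ j q) c) = _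
  rw [VV_psi hq, mv_psi hq, ← add_assoc]
  simp only [x_psi h0]
  refine (congrArg (· + _) h1).trans ?_
  rw [smul_frC]
  refine (add_frC ..).trans ?_
  simp only [pC, St.rW, mul_zero, add_zero, div_eq_mul_inv]
  rfl

theorem pb_Y (hq : T.R - 1 ≤ q.1) (ξ : F.Ξ σ) :
    pb (F.Y ξ) (T.ψ j) q = pC (fR (T.e.Q j) fun i => ξ.2.2 (j, i)) (T.rW j (F.w ξ)) q :=
  pb_Xh hq _ _

theorem on_fR (Q : E ≃ₗᵢ[ℝ] E) (β : Fin 2 → ℂ) : On (fR Q β) := Ro.on_rf (on_fQ Q) β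

/-- the multiplier functions vanish on the tubes -/
theorem ph_ev {p : S.sl 0} (hp : ((p : E), (0 : ℝ)) ∈ tube T.e j (T.R - 2)) (c : F.I → ℂ) :
    (F.D.ph c).1 =ᶠ[𝓝 p] (0 : T.G.SmC).1 := by
  have h : ∀ k, ∀ᶠ y in 𝓝 p, (F.φ k).1 y = 0 := fun k =>
    notMem_tsupport_iff_eventuallyEq.1 fun h => (F.supp k p h).2 j hp
  filter_upwards [eventually_all.2 h] with y hy
  have e : ∀ k, ev T.G y (c k • T.G.oR (F.φ k)) = c k * ((F.φ k).1 y : ℂ) := fun _ => rfl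
  change ev T.G y (∑ k, c k • T.G.oR (F.φ k)) = 0
  simp [map_sum, e, hy]

theorem Mu_zero {p : S.sl 0} (hp : ((p : E), (0 : ℝ)) ∈ tube T.e j (T.R - 2)) (u : T.G.SmC)
    (M : Nq.Mt (Fin T.p)) (c : F.I → ℂ) : (F.D.Mu u M c).1 p = 0 := by
  have h := ph_ev (F := F) hp c
  have h1 : (u * F.D.ph c).1 =ᶠ[𝓝 p] (0 : T.G.SmC).1 := h.mono fun y hy =>
    (congrArg (u.1 y * ·) hy).trans (mul_zero _)
  have h2 : ∀ a, ev T.G p (T.G.SC.D a (u * F.D.ph c)) = 0 := fun a => by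
    rw [ev_apply, (Lp.D_ev h1 a).self_of_nhds, T.G.dsC.D_zero]; rfl
  have h3 : ev T.G p (F.D.ph c) = 0 := h.self_of_nhds
  rw [← ev_apply]
  simp only [Nq.Dt.Mu, map_sub, map_mul, map_sum, h2, h3, mul_zero, Finset.sum_const_zero, sub_zero]

theorem off_of_not {a b : ℝ} (ha : T.e.R ≤ a) (hab : a < b) {p : S.sl 0}
    (hp : ((p : E), (0 : ℝ)) ∉ tube T.e j a) : ((p : E), (0 : ℝ)) ∈ Off T.e j b :=
  (tube_or_off' (stat T) (ha.trans_lt hab) hab p.2 j).resolve_left hp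

theorem zeta_of_not {a b : ℝ} (ha : T.e.R < a) (hab : a < b) {p : S.sl 0}
    (hp : ∀ j, ((p : E), (0 : ℝ)) ∉ tube T.e j a) : zeta T.e a b p = 1 :=
  Finset.prod_eq_one fun i _ => by
    have : chi T.e i a b p = 0 := not_not.1 fun h =>
      hp i (tube_of_chi (p := ((p : E), 0)) (stat T) ha hab p.2 h)
    rw [this, sub_zero]

theorem val_toA {p : S.sl 0} {f : T.G.SmC} (h : f.1 p = 0) : (σ.val (EC.toA σ f)).1 p = 0 := by
  rw [EC.toA]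
  split_ifs
  · exact h
  · rw [map_zero]; rfl

/-- the sources vanish inside -/
theorem sE_zero {p : S.sl 0} (hp : ∀ j, ((p : E), (0 : ℝ)) ∉ tube T.e j (T.R + 1 / 10))
    (v : ℝ × ℝ → ℂ) : (T.sE j v).1 p = 0 := by
  have h0 := T.hR
  have h1 : T.χ'.1 p = 1 := zeta_of_not (by linarith) (by linarith) hp
  have h2 : ∀ᶠ y : S.sl 0 in 𝓝 p, ∀ i, ((y : E), (0 : ℝ)) ∈ Off T.e i (T.R + 1 / 3) :=
    (continuous_subtype_val.prodMk continuous_const).continuousAt.eventually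
      ((isOpen_allOff _).mem_nhds fun i => off_of_not (by linarith) (by linarith) (hp i))
  have h3 : (T.G.oR T.χ * T.uE j v).1 =ᶠ[𝓝 p] (T.uE j v).1 := h2.mono fun y hy => by
    have : T.χ.1 y = 1 := zeta_one (p := ((y : E), 0)) (by linarith) hy
    change (T.χ.1 y : ℂ) * _ = _
    rw [this, Complex.ofReal_one, one_mul]
  change (T.G.ρ.1 p : ℂ) * ((T.G.SC.LL (T.G.oR T.χ * T.uE j v)).1 p -
    (T.χ'.1 p : ℂ) * (T.G.SC.LL (T.uE j v)).1 p) = 0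
  rw [Lp.LL_congr h3, h1, Complex.ofReal_one, one_mul, sub_self, mul_zero]

variable {N : ℕ} {X : ℂ} {y : Fin F.n → ℂ} {a : Fin T.p → ℂ} {ξ : F.Ξ σ}

/-- the first component of the system at a point -/
theorem eq_pt (hv : (σ.val (F.NL ξ)).1 = F.nl ξ) (hs : F.Sv N X y a ξ) (p : S.sl 0) :
    (σ.val ξ.1).1 p = F.nl ξ p +
      ∑ j, (σ.val (EC.toA σ (T.sE j (T.vU (F.zE N X a ξ j))))).1 p := by
  have h := congrArg (fun u => ev T.G p (σ.val u.1)) hs.eq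
  simp only [Fa.Φ, map_sub, map_sum, Prod.fst_zero, map_zero] at h
  rw [ev_apply, ev_apply, hv, sub_sub, sub_eq_zero] at h
  exact h

theorem EQ_in (hv : (σ.val (F.NL ξ)).1 = F.nl ξ) (hs : F.Sv N X y a ξ) {p : S.sl 0}
    (hp : ∀ j, ((p : E), (0 : ℝ)) ∉ tube T.e j (T.R + 1 / 10)) : F.EQ ξ p = 0 := by
  have h0 := T.hR
  have h1 : T.χ'.1 p = 1 := zeta_of_not (by linarith) (by linarith) hp
  have h := eq_pt hv hs p
  rw [Finset.sum_eq_zero fun i _ => val_toA (sE_zero hp _), Fa.nl, h1, Complex.ofReal_one] at h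
  have h2 : (T.G.ρ.1 p : ℂ) ≠ 0 := by exact_mod_cast (rho_pos (e := T.e) T.P.a ((p : E), 0)).ne'
  exact (mul_eq_zero.1 (by linear_combination -h : (T.G.ρ.1 p : ℂ) * F.EQ ξ p = 0)).resolve_left h2

/-- the Euler-Lagrange expression vanishes where the core matches the end -/
theorem ELX_zero {z : Par T.ℓ} (hz : z ∈ Dom T.R T.k.K1 (13 / 8) (7 / 4) T.k.ε)
    (hr : RegJ T.R z.1 z.2.1 (T.U z)) (h2 : ∀ s θ, 2 * vj T.R z.1 z.2.1 (T.U z) s θ 0 ∈ Complex.slitPlane)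
    {b : ℝ} (hb : b ≤ 1) (mt : ∀ q : ℝ × ℝ, T.R < q.1 → q.1 < T.R + b →
      T.rW j (F.w ξ) q = (2 * T.vU z q) ^ (1 / 2 : ℂ)) (h1 : T.R < q.1) (h3 : q.1 ≤ T.R + b) :
    (T.G.SC.ELX (F.Y ξ)).1 (T.ψ j q) = 0 := by
  have h0 := T.hR
  have k : ∀ y : ℝ × ℝ, y.1 ∈ Ioo T.R (T.R + b) → (T.G.SC.ELX (F.Y ξ)).1 (T.ψ j y) = 0 := fun y hy =>
    (zone j le_rfl (by linarith) (by linarith)).el_zero (T.hU.sol z hz) hr h2
      (on_fR (T.e.Q j) fun i => ξ.2.2 (j, i)) (fun u hu => by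
        rw [pb_Y (by linarith [hu.1]), pC, pC, mt u hu.1 hu.2, one_div]; rfl) hy
  have c : ContinuousAt (fun y => (T.G.SC.ELX (F.Y ξ)).1 (T.ψ j y)) q :=
    ((pl (by linarith)).pm.cd (T.G.SC.ELX (F.Y ξ)).2).continuousAt
  have m : q ∈ closure (Ioo T.R (T.R + b) ×ˢ (univ : Set ℝ)) := by
    rw [closure_prod_eq, closure_Ioo (by linarith), closure_univ]
    exact ⟨⟨h1.le, h3⟩, trivial⟩
  exact (c.continuousWithinAt.eq_const_of_mem_closure m fun y hy => k y hy.1)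

/-- the core equation -/
theorem EQ_zero (hv : (σ.val (F.NL ξ)).1 = F.nl ξ) (hs : F.Sv N X y a ξ)
    (hr : ∀ z ∈ Dom T.R T.k.K1 (13 / 8) (7 / 4) T.k.ε, RegJ T.R z.1 z.2.1 (T.U z) ∧
      ∀ s θ, 2 * vj T.R z.1 z.2.1 (T.U z) s θ 0 ∈ Complex.slitPlane)
    (mt : ∀ j (q : ℝ × ℝ), T.R < q.1 → q.1 < T.R + 1 / 3 →
      T.rW j (F.w ξ) q = (2 * T.vU (F.zE N X a ξ j) q) ^ (1 / 2 : ℂ)) {p : S.sl 0}
    (hp : ∀ j, ((p : E), (0 : ℝ)) ∉ tube T.e j (T.R + 1 / 3)) : F.EQ ξ p = 0 := by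
  have h0 := T.hR
  by_cases h : ∀ j, ((p : E), (0 : ℝ)) ∉ tube T.e j (T.R + 1 / 10)
  · exact EQ_in hv hs h
  simp only [not_forall, not_not] at h
  obtain ⟨j, h⟩ := h
  have hM := Mu_zero (F := F) (tube_mono (by linarith) h) (F.w ξ) (T.TT ξ.2.2) (F.c ξ)
  obtain ⟨q, hq, -, e⟩ := Ec.exists_psi (stat T) (by linarith) p h
  have h1 : T.e.R < q.1 := by linarith
  have h3 : q.1 ≤ T.R + 1 / 3 := not_lt.1 fun k => hp j (e ▸ Ec.psi_tube h1 k)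
  have hE : (T.G.SC.ELX (F.Y ξ)).1 (T.ψ j q) = 0 :=
    ELX_zero (F := F) (ξ := ξ) (j := j) (q := q) (z := F.zE N X a ξ j) (b := 1 / 3) (hs.dom j)
      (hr _ (hs.dom j)).1 (hr _ (hs.dom j)).2 (by norm_num) (mt j) (by linarith) h3
  have e2 : T.ψ j q = p := (psi_eq h1).trans e
  rw [e2, Fa.Y] at hE
  have k : ∀ a b c d : ℂ, a = 0 → c = 0 → a / b - c / d = 0 := fun a b c d h1 h2 => by
    rw [h1, h2, zero_div, zero_div, sub_zero]
  rw [Fa.EQ]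
  unfold Nq.Dt.EQ
  exact k _ _ _ _ hE hM

theorem ζ_one {p : S.sl 0} (hp : ∀ j, ((p : E), (0 : ℝ)) ∉ tube T.e j (T.R + 1 / 3)) :
    T.G.ζ.1 p = 1 := by
  have h0 := T.hR
  rw [T.P.geo_ζ, T.ha', T.hb']
  exact zeta_of_not (by linarith) (by linarith) fun j h => hp j (tube_mono (by linarith) h)

end Crest.Agent.N250.Mq

end
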