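import Crest.Agent.N250.R0.Leaf
import Crest.Agent.N250.Se.Dic
import Crest.Agent.N250.Mc.Eq_Mg
import Crest.Agent.N250.Wt.Grn2
import Crest.Agent.N250.Sg.Cut
import Crest.Agent.N250.Em.Rd
import Crest.Agent.N250.Mt.PR
import Crest.Agent.N250.Wt.All

-- ▼ part N250/Mc/Eqn
section

/-!
# Row 250 (helper66): matching, the equation in the chart of an end
-/

set_option autoImplicit false
open Set Filter Topology
open Crest.GeometryTopology.MCF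

noncomputable section

namespace Crest.Agent.N250.Mc

open Po Mt Lp

variable {f g : ℝ × ℝ → ℂ} {q : ℝ × ℝ}

theorem j_congr (h : f =ᶠ[𝓝 q] g) : j1 f q = j1 g q ∧ j2 f q = j2 g q := by
  have e := jet_congr h
  exact ⟨Prod.ext (congrFun e 0) (Prod.ext (congrFun e 1) (congrFun e 2)),
    Prod.ext (congrFun e 3) (Prod.ext (congrFun e 4) (congrFun e 5))⟩

theorem nr_congr {c : ℂ} {ε C : ℝ} (n : Nr c ε C f q) (h : g =ᶠ[𝓝 q] f) : Nr c ε C g q := by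
  have e := jet_congr h
  exact ⟨(congrArg (‖· - c‖) (congrFun e 0)).trans_le n.1,
    (congrArg norm (congrFun e 1)).trans_le n.2.1, (congrArg norm (congrFun e 2)).trans_le n.2.2.1,
    (congrArg norm (congrFun e 3)).trans_le n.2.2.2.1,
    (congrArg norm (congrFun e 4)).trans_le n.2.2.2.2.1,
    (congrArg norm (congrFun e 5)).trans_le n.2.2.2.2.2⟩

theorem Qr_congr (h : f =ᶠ[𝓝 q] g) : Qr f q = Qr g q := by
  have e := jet_congr h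
  rw [Qr, Qr, h.self_of_nhds, show d1 f q = d1 g q from congrFun e 1,
    show d2 f q = d2 g q from congrFun e 2]

/-- the square root of `r²` -/
theorem sqrt_sq {r : ℂ} {ε : ℝ} (h : ‖r - (√2 : ℝ)‖ ≤ ε) (hε : ε ≤ 1 / 10) :
    (2 * (r ^ 2 / 2)) ^ (1 / 2 : ℂ) = r := by
  have h1 := abs_le.1 ((Complex.abs_re_le_norm _).trans h)
  rw [Complex.sub_re, Complex.ofReal_re] at h1
  have h2 : 0 < r.re := by linarith [sq2.1, h1.1]
  rw [show 2 * (r ^ 2 / 2) = r ^ 2 by ring, one_div]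
  exact Complex.sq_cpow_two_inv h2

end Crest.Agent.N250.Mc

namespace Crest.Agent.N250.R0

open WS Wr B1 Gc Po Mt Lp Mc

variable {S : Mv}

namespace St

variable (T : St S) {j : Fin T.p} {q : ℝ × ℝ}

theorem injOn_ψ' (j : Fin T.p) : InjOn (T.ψ j) (Ioi T.R ×ˢ Ico 0 (2 * Real.pi)) := by
  have pi := Real.pi_pos
  have k : ∀ x ∈ Ioi T.R ×ˢ Ico 0 (2 * Real.pi), ∃ c : ℝ, (c = 0 ∨ c = 2 * Real.pi) ∧
      (x.1, x.2 - c) ∈ strip (Ioi T.R) ∧ T.ψ j (x.1, x.2 - c) = T.ψ j x := fun x hx => by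
    rcases le_or_gt x.2 Real.pi with h | h
    · exact ⟨0, .inl rfl, ⟨hx.1, by linarith [hx.2.1], by linarith⟩, by rw [sub_zero]⟩
    · refine ⟨_, .inr rfl, ⟨hx.1, by linarith, by linarith [hx.2.2]⟩, ?_⟩
      rw [← T.ψ_per (T.eR_lt_R.trans hx.1), sub_add_cancel]
  intro x hx y hy h
  obtain ⟨a, ha, a1, a2⟩ := k x hx
  obtain ⟨b, hb, b1, b2⟩ := k y hy
  have e := T.injOn_ψ (I := Ioi T.R) (fun _ h => T.eR_lt_R.trans h) a1 b1 (by rw [a2, b2, h])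
  have e1 : x.1 = y.1 := congrArg (·.1) e
  have e2 : x.2 - a = y.2 - b := congrArg (·.2) e
  refine Prod.ext e1 ?_
  rcases ha with rfl | rfl <;> rcases hb with rfl | rfl <;>
    linarith [hx.2.1, hx.2.2, hy.2.1, hy.2.2]

theorem rW_ev (w : T.G.SmC) (hq : T.e.R < q.1) :
    rG T.G (T.ψ j) (T.e.Q j) (T.e.r j) w =ᶠ[𝓝 q] T.rW j w :=
  (T.nu_ev (j := j) hq).mono fun y hy => by rw [rG, rW, hy]; rfl

theorem χ'_ψ (hq : T.e.R < q.1) : ((T.χ'.1 (T.ψ j q) : ℝ) : ℂ) = T.k1 q := by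
  rw [T.ze_ψ (by norm_num) (by norm_num) hq]; rfl

theorem per_k1 : Per T.k1 := fun _ _ => rfl

theorem k1_zero (hq : T.R + 1 / 5 ≤ q.1) : T.k1 q = 0 := by
  rw [k1, st_one (by linarith) hq]; simp

theorem k1_one (hq : q.1 ≤ T.R + 1 / 10) : T.k1 q = 1 := by
  rw [k1, st_zero (by linarith) hq]; simp

theorem k1_norm (q : ℝ × ℝ) : ‖1 - T.k1 q‖ + ‖T.k1 q‖ ≤ 1 := by
  have h0 := st_nonneg (T.R + 1 / 10) (T.R + 1 / 5) q.1
  have h1 := st_le_one (T.R + 1 / 10) (T.R + 1 / 5) q.1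
  rw [k1, ← Complex.ofReal_one, ← Complex.ofReal_sub, Complex.norm_real, Complex.norm_real,
    Real.norm_of_nonneg (by linarith), Real.norm_of_nonneg (by linarith)]
  linarith

theorem r1_lo (z : Par T.ℓ) (hq : q.1 ≤ T.R + 1 / 3) :
    T.r1 j z q = (2 * T.vU z q) ^ (1 / 2 : ℂ) := by
  rw [r1, st_zero (by linarith) hq]; simp

theorem r1_hi (z : Par T.ℓ) (hq : T.R + 2 / 3 ≤ q.1) : T.r1 j z q = T.rS j q := by
  rw [r1, st_one (by linarith) hq]; simp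

/-- the cut-off lift in the chart -/
theorem χ_uE_ψ {z : Par T.ℓ} (ok : EC.Ok T.IU (T.gE j (T.vU z))) (hq : T.R + 1 / 10 < q.1) :
    (T.G.oR T.χ * T.uE j (T.vU z)).1 (T.ψ j q) =
      nom T.G (T.ψ j) (T.e.Q j) q * (T.r1 j z q - T.e.r j q) := by
  have hq' : T.e.R < q.1 := T.eR_lt' (by linarith)
  change ((T.χ.1 (T.ψ j q) : ℝ) : ℂ) * (T.uE j (T.vU z)).1 (T.ψ j q) = _ * (_ - T.rS j q)
  rw [T.uE_ψ ok hq', ← T.nu_nom hq', T.ze_ψ (by norm_num) (by norm_num) hq', r1, gE]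
  rcases le_total q.1 (T.R + 2 / 3) with h | h
  · rw [T.κ_ψ_one hq.le h]; push_cast; ring
  · rw [st_one (by linarith) h]; simp

/-- the source of the end `j` in its chart -/
theorem sE_ψ (v : ℝ × ℝ → ℂ) (hq : T.R ≤ q.1) : (T.sE j v).1 (T.ψ j q) =
    (1 - T.k1 q) * (T.G.SC.LL (T.G.oR T.χ * T.uE j v)).1 (T.ψ j q) := by
  have hq' : T.e.R < q.1 := T.eR_lt' (by linarith)
  change ((T.G.ρ.1 (T.ψ j q) : ℝ) : ℂ) * ((T.G.SC.LL (T.G.oR T.χ * T.uE j v)).1 (T.ψ j q) -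
    ((T.χ'.1 (T.ψ j q) : ℝ) : ℂ) * (T.G.SC.LL (T.uE j v)).1 (T.ψ j q)) = _
  rw [T.ρ_ψ (by linarith), T.χ'_ψ hq', Complex.ofReal_one, one_mul]
  rcases le_or_gt (T.R + 1 / 5) q.1 with h | h
  · rw [T.k1_zero h]; ring
  · have c : ContinuousAt (T.ze (1 / 5) (1 / 3)).1 (T.ψ j q) :=
      (N222.Imm.Sm.continuous (T.ze (1 / 5) (1 / 3)).2).continuousAt
    have e : (T.G.oR T.χ * T.uE j v).1 =ᶠ[𝓝 (T.ψ j q)] (T.uE j v).1 := by
      filter_upwards [c.eventually_ne (y := 0) (by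
        rw [T.ze_ψ_one (by norm_num) (by norm_num) hq' h.le]; exact one_ne_zero)] with p hp
      change ((T.χ.1 p : ℝ) : ℂ) * _ = _
      rw [T.ze_one_of_ne (by norm_num) (by norm_num) le_rfl (by norm_num) hp]; simp
    rw [LL_congr e]; ring

/-- the sources of the other ends -/
theorem sE_ψ_ne {i : Fin T.p} (hi : i ≠ j) (v : ℝ × ℝ → ℂ) (hq : T.e.R < q.1) :
    (T.sE i v).1 (T.ψ j q) = 0 := by
  have k : ∀ u : T.G.SmC, EC.Sp (T.Kκ i) u → (T.G.SC.LL u).1 (T.ψ j q) = 0 := fun u hu => by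
    rw [LL_congr (g := 0) (hu.ev (T.zn_κ i).cl (T.ψ_notMem_Kκ hi hq)), Mov.LL_zero T.G.hypC.toIsDS]; rfl
  change ((T.G.ρ.1 (T.ψ j q) : ℝ) : ℂ) * ((T.G.SC.LL (T.G.oR T.χ * T.uE i v)).1 (T.ψ j q) -
    ((T.χ'.1 (T.ψ j q) : ℝ) : ℂ) * (T.G.SC.LL (T.uE i v)).1 (T.ψ j q)) = _
  rw [k _ ((T.sp_uE i v).mul_left _), k _ (T.sp_uE i v)]; simp

end St

theorem bd_k1 : ∃ C : ℝ, 1 ≤ C ∧ ∀ (S : Mv) (T : St S) (q : ℝ × ℝ), Bd C T.k1 q := by
  obtain ⟨C, hC⟩ := Sg.exists_st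
  have C0 : 0 ≤ C := (sq_nonneg _).trans (hC 0)
  refine ⟨10 * (C + 1), by linarith, fun S T q => ?_⟩
  have h1 : HasFDerivAt (fun y : ℝ × ℝ => (y.1 - (T.R + 1 / 10)) / (T.R + 1 / 5 - (T.R + 1 / 10)))
      ((10 : ℝ) • ContinuousLinearMap.fst ℝ ℝ ℝ) q := by
    refine (((hasFDerivAt_fst.sub_const (T.R + 1 / 10)).const_mul 10).congr_of_eventuallyEq
      (.of_forall fun y => ?_))
    simp only
    ring
  have h2 := Complex.ofRealCLM.hasFDerivAt.comp q ((((Real.smoothTransition.contDiff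
    (n := 1)).differentiable one_ne_zero _).hasDerivAt.comp_hasFDerivAt q h1).const_sub 1)
  have e : ∀ v, ‖fderiv ℝ T.k1 q v‖ ≤ 10 * (C + 1) * |v.1| := fun v => by
    rw [show fderiv ℝ T.k1 q = _ from h2.fderiv]
    generalize (q.1 - (T.R + 1 / 10)) / (T.R + 1 / 5 - (T.R + 1 / 10)) = s
    change ‖((-(deriv Real.smoothTransition s * (10 * v.1)) : ℝ) : ℂ)‖ ≤ _
    rw [Complex.norm_real, Real.norm_eq_abs, abs_neg, abs_mul, abs_mul, abs_of_pos (by norm_num : (0 : ℝ) < 10)]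
    have : |deriv Real.smoothTransition s| ≤ C + 1 := by
      nlinarith [hC s, sq_abs (deriv Real.smoothTransition s), abs_nonneg (deriv Real.smoothTransition s)]
    nlinarith [abs_nonneg v.1]
  refine ⟨?_, ?_, (e _).trans (by simp), (e _).trans (by simp; linarith)⟩
  · exact cd_ofReal ((contDiff_const.sub ((contDiff_st _ _).comp contDiff_fst)).of_le
      (by simp)).contDiffAt
  · linarith [T.k1_norm q, norm_nonneg (1 - T.k1 q)]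

namespace Fa

variable {T : St S} (F : Fa T) {σ : Scale T.G} {j : Fin T.p} {q : ℝ × ℝ}

theorem ph_ev (c : F.I → ℂ) (hq : T.R - 2 < q.1) : (F.D.ph c).1 =ᶠ[𝓝 (T.ψ j q)] fun _ => 0 := by
  filter_upwards [eventually_all.2 fun k =>
    notMem_tsupport_iff_eventuallyEq.1 (F.ψ_notMem (j := j) k hq)] with p hp
  simp [ph_apply, hp]

theorem Mu_ψ' (u : T.G.SmC) (M : Nq.Mt (Fin T.p)) (c : F.I → ℂ) (hq : T.R - 2 < q.1) :
    (F.D.Mu u M c).1 (T.ψ j q) = 0 := by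
  have e : (u * F.D.ph c).1 =ᶠ[𝓝 (T.ψ j q)] (0 : T.G.SmC).1 :=
    (F.ph_ev c hq).mono fun p hp => mul_eq_zero_of_right _ hp
  have k : ∀ a, Cj.ev T.G (T.ψ j q) (T.G.SC.D a (u * F.D.ph c)) = 0 := fun a =>
    (D_ev e a).self_of_nhds.trans (by rw [T.G.hypC.D_zero]; rfl)
  rw [← Cj.ev_apply, Nq.Dt.Mu]
  simp only [map_sub, map_mul, map_sum, k, mul_zero, Finset.sum_const_zero, sub_zero]
  exact mul_eq_zero_of_right _ (F.ph_ψ c hq)

theorem EQ_ψ (ξ : F.Ξ σ) {ε C : ℝ} (hq : T.R ≤ q.1) (n : Nr (√2 : ℝ) ε C (T.rW j (F.w ξ)) q)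
    (hε : ε ≤ 1 / 10) : F.EQ ξ (T.ψ j q) =
      EP T.G (T.ψ j) (T.e.Q j) (rG T.G (T.ψ j) (T.e.Q j) (T.e.r j) (F.w ξ)) q := by
  have hq' : T.e.R < q.1 := T.eR_lt' (by linarith)
  have g := n.Qr_ge hε
  have ne : Qr (T.rW j (F.w ξ)) q * T.rW j (F.w ξ) q ≠ 0 := norm_pos_iff.1 (by linarith)
  have e := T.rW_ev (j := j) (F.w ξ) hq'
  have k := EQ_pol (F.pc_Y ξ (by linarith) (right_ne_zero_of_mul ne)) (T.pl hq').sg_ne
    (left_ne_zero_of_mul ne) (T.nu_ne (j := j) hq')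
  have v : Cj.val (F.D.VV (T.TT ξ.2.2)) (T.ψ j q) = _ := funext (F.VV_ψ ξ.2.2 (by linarith))
  rw [EP, (j_congr e).1, (j_congr e).2, Qr_congr e, e.self_of_nhds, ← T.nu_nom hq', ← k, EQ,
    Nq.Dt.EQ, F.Mu_ψ' _ _ _ (by linarith), zero_div, sub_zero, Nq.Dt.NZ, Cj.dot_val, v, Y]

/-- the first component of the system in the chart -/
theorem eqn {N : ℕ} {X : ℂ} {y : Fin F.n → ℂ} {a : Fin T.p → ℂ} {ξ : F.Ξ σ}
    (h : F.Sv N X y a ξ) (hn : (σ.val (F.NL ξ)).1 = F.nl ξ)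
    (hv : ∀ i, σ.val (EC.toA σ (T.sE i (T.vU (F.zE N X a ξ i)))) = T.sE i (T.vU (F.zE N X a ξ i)))
    (hq : T.R ≤ q.1) : (1 - T.k1 q) * (T.G.SC.LL (F.w ξ -
      T.G.oR T.χ * T.uE j (T.vU (F.zE N X a ξ j)))).1 (T.ψ j q) = T.k1 q * F.EQ ξ (T.ψ j q) := by
  have hq' : T.e.R < q.1 := T.eR_lt' (by linarith)
  have e0 : ξ.1 - F.NL ξ - ∑ i, EC.toA σ (T.sE i (T.vU (F.zE N X a ξ i))) = 0 := congrArg (·.1) h.eq
  have e1 := congrArg (fun u => Cj.ev T.G (T.ψ j q) (σ.val u)) e0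
  simp only [map_sub, map_sum, map_zero, hv, Cj.ev_apply, hn] at e1
  rw [Finset.sum_eq_single j (fun i _ hi => T.sE_ψ_ne hi _ hq') (by simp), T.sE_ψ _ hq, nl,
    T.ρ_ψ (by linarith), T.χ'_ψ hq'] at e1
  have e2 := congrArg (Cj.ev T.G (T.ψ j q)) (F.ρ_LL_w ξ)
  have k : ∀ k, Cj.ev T.G (T.ψ j q) (F.c ξ k • T.G.oR (T.G.ρ * F.φ k)) = 0 := fun k => by
    change F.c ξ k * ((T.G.ρ.1 (T.ψ j q) * (F.φ k).1 (T.ψ j q) : ℝ) : ℂ) = 0
    rw [F.φ_ψ k (by linarith)]; simp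
  rw [map_sub, map_sum, map_mul, Finset.sum_eq_zero fun i _ => k i] at e2
  change ((T.G.ρ.1 (T.ψ j q) : ℝ) : ℂ) * (T.G.SC.LL (F.w ξ)).1 (T.ψ j q) =
    (σ.val ξ.1).1 (T.ψ j q) - 0 at e2
  rw [T.ρ_ψ (by linarith)] at e2
  rw [Mov.LL_sub T.G.hypC.toIsDS]
  change _ * ((T.G.SC.LL (F.w ξ)).1 (T.ψ j q) - (T.G.SC.LL _).1 (T.ψ j q)) = _
  push_cast at e1 e2
  linear_combination e1 + (1 - T.k1 q) * e2

end Fa

end Crest.Agent.N250.R0

end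
end

-- ▼ part N250/Mc/Src
section

/-!
# Row 250 (helper49): matching, the source term of the ends and the trace at `x = R`
-/

set_option autoImplicit false
open Set Filter Topology
open scoped ContDiff
open Crest.GeometryTopology.MCF

noncomputable section

namespace Crest.Agent.N250.R0

open WS Wr B1 Po

variable {S : Mv}

/-- continuous periodic functions are determined by their Fourier coefficients -/
theorem eq_of_fc {f g : ℝ → ℂ} (hf : Continuous f) (hg : Continuous g)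
    (pf : Function.Periodic f (2 * Real.pi)) (pg : Function.Periodic g (2 * Real.pi))
    (h : ∀ m, Ra.fc f m = Ra.fc g m) (θ : ℝ) : f θ = g θ := by
  have e : Ra.fc (fun θ => f θ - g θ) = fun _ => 0 := funext fun m => by
    rw [Ra.fc_sub hf hg, h, sub_self]
  have k := Ra.fc_hasSum (f := fun θ => f θ - g θ) (pf.sub pg) (hf.sub hg) (e ▸ summable_zero) θ
  simp only [e, zero_mul] at k
  exact sub_eq_zero.1 (k.unique hasSum_zero)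

namespace St

variable (T : St S) {i j : Fin T.p} {q : ℝ × ℝ} {z : Par T.ℓ}

/-- the source operator with a general coefficient -/
def sO (j : Fin T.p) (c : T.G.SmC) (g : ℝ × ℝ → ℂ) : T.G.SmC :=
  T.G.oR T.G.ρ * (T.G.SC.LL (T.G.oR T.χ * EC.lift T.G (T.e.Q j) c g) -
    T.G.oR T.χ' * T.G.SC.LL (EC.lift T.G (T.e.Q j) c g))

theorem op_sO {I : Set ℝ} {K : Set (S.sl 0)} (Z : EC.Zn T.G (T.e.Q j) I K) {c : T.G.SmC}
    (hc : EC.Sp K c) : EC.Op T.G (T.e.Q j) I K 2 (T.sO j c) :=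
  (((((EC.Op.lift (k := 0) hc).mul Z _).LL Z).sub Z (((EC.Op.lift (k := 0) hc).LL Z).mul Z _)).mul Z _)





/-- the strip `R + 1/40 < x < R + 1` -/
abbrev IV : Set ℝ := Ioo (T.R + 1 / 40) (T.R + 1)


theorem zn_V (j : Fin T.p) : EC.Zn T.G (T.e.Q j) T.IV (T.Kκ j) :=
  EC.zn_Kc (T.eR_lt (by norm_num)) isOpen_Ioo fun _ h => ⟨by linarith [h.1], by linarith [h.2]⟩

theorem rf_rS (j : Fin T.p) {a b : ℝ} (ha : T.e.R < a) : Em.Rf (T.rS j) a b :=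
  Em.rf_of (T.ok_rS subset_rfl) isOpen_Ioi fun _ h => ha.trans_le h.1

theorem gE_prof (j : Fin T.p) (z : Par T.ℓ) :
    T.gE j (T.vU z) = fun y => T.nu j y * Em.prof T.U T.R (T.rS j) z y :=
  funext fun _ => mul_comm _ _

variable {T}

theorem Good.ok_prof (h : T.Good) (j : Fin T.p) (hz : z ∈ T.Dm) :
    EC.Ok T.IU (Em.prof T.U T.R (T.rS j) z) := by
  obtain ⟨c, CD, C, F⟩ := h.fm
  have k := fun a (ha : T.R < a) => F.ok_prof ha le_rfl (T.rf_rS j (T.eR_lt_R.trans ha)) hz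
  refine ⟨fun y hy => ?_, (k (T.R + 1) (by linarith)).per⟩
  obtain ⟨a, h1, h2⟩ := exists_between (show T.R < y.1 from hy.1.1)
  exact ((k a h1).cdAt isOpen_Ioo ⟨h2, hy.1.2⟩).contDiffWithinAt

theorem Good.ok_gE (h : T.Good) (j : Fin T.p) (hz : z ∈ T.Dm) : EC.Ok T.IU (T.gE j (T.vU z)) :=
  T.gE_prof j z ▸ (T.ok_nu T.IU_sub).mul (h.ok_prof j hz)

theorem Good.sE_eq (h : T.Good) (j : Fin T.p) (hz : z ∈ T.Dm) : T.sE j (T.vU z) =
    T.sO j (EC.lift T.G (T.e.Q j) (T.G.oR (T.κ j)) (T.nu j)) (Em.prof T.U T.R (T.rS j) z) := by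
  rw [sO, (T.zn_κ j).lift_lift (T.sp_κ j) (T.ok_nu T.IU_sub) (h.ok_prof j hz), ← gE_prof]; rfl

/-- the reading of the ends by the source, in the Floer norm -/
theorem Good.ra (h : T.Good) : Sg fun σ : Scale T.G => ∀ j, ∃ M A, Em.RA T.U T.R T.k.K1 T.k.ε
    (T.R + 1 / 40) (T.R + 1) (T.rS j)
    (T.sO j (EC.lift T.G (T.e.Q j) (T.G.oR (T.κ j)) (T.nu j))) σ M A := by
  obtain ⟨c, CD, C, F⟩ := h.fm
  exact (eventually_all.2 fun j => F.ra (by linarith) (by linarith) le_rfl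
    (T.rf_rS j (T.eR_lt (by norm_num))) (T.zn_V j) (T.op_sO (T.zn_V j) ((T.sp_κ j).lift (T.nu j)))
    (T.compact_Kκ j)).mono fun _ k σ e j => k j σ e

/-- the sources have finite Floer norm -/
theorem Good.src (h : T.Good) : Sg fun σ : Scale T.G => ∀ j, ∀ z ∈ T.Dm,
    σ.val (EC.toA σ (T.sE j (T.vU z))) = T.sE j (T.vU z) :=
  h.ra.mono fun _ k j z hz => by
    obtain ⟨M, A, k⟩ := k j
    rw [h.sE_eq j hz]; exact k.val z hz



end St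

namespace Fa

variable {T : St S} {F : Fa T} {σ : Scale T.G} {N : ℕ} {X : ℂ} {y : Fin F.n → ℂ} {a : Fin T.p → ℂ}
  {ξ : F.Ξ σ}

/-- first component of the system -/
theorem Sv.fst (h : F.Sv N X y a ξ) :
    ξ.1 - F.NL ξ - ∑ j, EC.toA σ (T.sE j (T.vU (F.zE N X a ξ j))) = 0 := congrArg (·.1) h.eq

/-- third component of the system -/
theorem Sv.thd (h : F.Sv N X y a ξ) (j : Fin T.p) (i : Fin 3) :
    Wi.co (F.dat ξ j) ((i : ℤ) - 1) = T.mE j (T.vU (F.zE N X a ξ j)) i :=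
  sub_eq_zero.1 (congrFun (congrArg (·.2.2) h.eq) (j, i))

/-- the core and the ends have the same trace at `x = R` -/
theorem Sv.trace (h : F.Sv N X y a ξ) (j : Fin T.p) (θ : ℝ) :
    T.vW j (F.w ξ) (T.R, θ) = T.vU (F.zE N X a ξ j) (T.R, θ) := by
  have hx : T.R ∈ Icc T.R (T.R + 1) := ⟨le_rfl, by linarith⟩
  have p1 := T.pd_vW (j := j) (F.w ξ) T.eR_lt_R
  have p2 := T.pd_vS (j := j) T.eR_lt_R
  have c3 : Continuous fun θ => T.vU (F.zE N X a ξ j) (T.R, θ) := Em.cont_vS _ _ hx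
  refine eq_of_fc p1.cd.continuous c3 p1.per (fun θ => vS_per _ _ _ θ) (fun m => ?_) θ
  have e1 := F.co_dat ξ j m
  rw [Ra.fc_sub p1.cd.continuous p2.cd.continuous] at e1
  rcases le_or_gt 2 |m| with hm | hm
  · have m0 : m ≠ 0 := by rintro rfl; simp at hm
    have e2 := (T.hU.sol _ (h.dom j)).bc.inner m hm
    have e3 : tS T.R T.R = i0 := Subtype.ext (by rw [tS_coe hx]; simp [i0])
    have e4 := (p2.sub (Ec.Pd.const 1)).co_four 2 m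
    have e5 := (Ec.Pd.const 1).co_four 2 m
    rw [Ec.Pd.four_const, Wi.co_cst, if_neg m0] at e5
    rw [Ra.fc_sub p2.cd.continuous continuous_const, ← e5] at e4
    change Ra.fc _ m = Ra.fc (fun θ => vS T.R _ (T.U _) (T.R, θ)) m
    rw [Em.fc_vS' _ _ hx, if_neg m0, e3, e2]
    change _ = Wi.co (T.b0 j + F.dat ξ j) m + 0
    rw [Wi.co_add, e1, St.b0, e4]; ring
  · obtain ⟨i, rfl⟩ : ∃ i : Fin 3, m = (i : ℤ) - 1 := by
      obtain ⟨h1, h2⟩ := abs_lt.1 hm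
      exact ⟨⟨(m + 1).toNat, by omega⟩, by simp only; omega⟩
    have e2 := h.thd j i
    rw [St.mE, Ra.fc_sub c3 p2.cd.continuous, e1] at e2
    exact sub_left_injective e2

end Fa

end Crest.Agent.N250.R0

end
end

-- ▼ part N250/Mc/Mt
section

/-!
# Row 250 (helper66): matching of the radii
-/

set_option autoImplicit false
open Set Filter Topology
open Crest.GeometryTopology.MCF

noncomputable section

namespace Crest.Agent.N250.R0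

open WS Wr B1 Gc Po Mt Lp Mc

/-- the ends are close to the cylinder and solve the equation -/
def EndNr : Prop := ∀ ε : ℝ, 0 < ε → ∀ (S : Mv) (e : Ends S), Ev e fun T => T.Good →
  ∃ X1 : ℝ, ∀ j, ∀ z ∈ T.Dm, X1 < z.1.re → Cn 2 T.R (T.r1 j z) ∧
    ∀ q : ℝ × ℝ, T.R < q.1 → q.1 ≤ T.R + 1 / 5 → Nr (√2 : ℝ) ε 1 (T.r1 j z) q ∧
      PRj q.1 (j1 (T.r1 j z) q) (j2 (T.r1 j z) q) = 0

/-- the shrinker is close to the cylinder -/
def RsNr : Prop := ∀ ε : ℝ, 0 < ε → ∀ (S : Mv) (e : Ends S), Ev e fun T =>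
  ∀ j (q : ℝ × ℝ), T.R ≤ q.1 → Nr (√2 : ℝ) ε 1 (T.rS j) q

/-- the core is close to the cylinder -/
def RwNr : Prop := ∀ ε : ℝ, 0 < ε → ∀ (S : Mv) (e : Ends S), Ev e fun T =>
  ∀ F : Fa T, Sg fun σ => ∃ ρ : ℝ, 0 < ρ ∧ ∀ ξ : F.Ξ σ, ‖ξ‖ < ρ → ∀ j (q : ℝ × ℝ), T.R ≤ q.1 →
    q.1 ≤ T.R + 1 / 5 → Nr (√2 : ℝ) ε 1 (T.rW j (F.w ξ)) q

theorem mt_of (h1 : EndNr) (h2 : RsNr) (h3 : RwNr) (S : Mv) (e : Ends S) :
    Ev e fun T => T.Good → ∀ F : Fa T, Sg fun σ => F.NLD σ → ∃ ρ X1 : ℝ, 0 < ρ ∧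
      ∀ N X y a (ξ : F.Ξ σ), X1 < X.re → ‖ξ‖ < ρ → ‖F.dat ξ‖ < ρ → F.Sv N X y a ξ →
        ∀ j (q : ℝ × ℝ), T.R < q.1 → q.1 < T.R + 1 / 3 →
          T.rW j (F.w ξ) q = (2 * T.vU (F.zE N X a ξ j) q) ^ (1 / 2 : ℂ) := by
  obtain ⟨ε, e0, e1, H⟩ := Mc.geo
  obtain ⟨C, C1, bd⟩ := bd_k1
  obtain ⟨R₁, H⟩ := H C
  refine ((((h1 ε e0 S e).and (h2 ε e0 S e)).and (h3 ε e0 S e)).and (Ev.of_R R₁)).mono ?_
  rintro T - ⟨⟨⟨h1, h2⟩, h3⟩, hR⟩ hG F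
  obtain ⟨X1, h1⟩ := h1 hG
  refine ((h3 F).and hG.src).mono ?_
  rintro σ ⟨⟨ρ, ρ0, h3⟩, hv⟩ hN
  obtain ⟨r, r0, hn⟩ := Metric.eventually_nhds_iff.1 hN.val
  refine ⟨min ρ r, X1, lt_min ρ0 r0, fun N X y a ξ hX n1 _ hs j q q1 q2 => ?_⟩
  replace hn := (hn (y := ξ) (by rw [dist_zero_right]; exact n1.trans_le (min_le_right _ _))).1
  replace h3 := h3 ξ (n1.trans_le (min_le_left _ _)) j
  obtain ⟨c1, h1⟩ := h1 j _ (hs.dom j) hX
  have lt : ∀ {q : ℝ × ℝ}, T.R ≤ q.1 → T.e.R < q.1 := fun h => T.eR_lt_R.trans_le h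
  rw [← T.r1_lo _ q2.le, ← (T.rW_ev (F.w ξ) (lt q1.le)).self_of_nhds]
  refine H T.R hR T.G (T.ψ j) (T.e.Q j) (T.e.r j) (F.w ξ) (T.r1 j (F.zE N X a ξ j)) T.k1
    (T.R + 1 / 5) (T.R + 2 / 3) (fun q hq => ⟨T.pl (lt hq), (h2 j q hq).mono le_rfl C1, bd S T q,
      T.k1_norm q⟩) (fun x θ hx => T.ψ_per (T.eR_lt_R.trans hx) θ) (T.e.per j) T.per_k1
    (T.injOn_ψ' j) (σ.gC_wG_ne F.grn _) ((F.isG ξ).gC_LL_ne F.grn (σ.gC_ne _))
    (fun q => T.k1_zero) (fun q a1 a2 => nr_congr ((h3 q a1 a2).mono le_rfl C1) (T.rW_ev _ (lt a1)))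
    c1 (fun q a1 a2 => ⟨(h1 q a1 a2).1.mono le_rfl C1, (h1 q a1 a2).2⟩)
    (fun q hq => T.r1_hi _ hq.le) (fun θ => ?_) (fun q hq => ⟨_, ?_,
      (F.eqn hs hn (fun i => hv i _ (hs.dom i)) hq.le).trans ?_⟩) q q1.le
  · rw [(T.rW_ev (F.w ξ) (q := (T.R, θ)) T.eR_lt_R).self_of_nhds, T.r1_lo _ (by simp),
      ← hs.trace j θ]
    exact (sqrt_sq (h3 (T.R, θ) le_rfl (by simp)).1 e1).symm
  · refine (le_or_gt q.1 (T.R + 1 / 10)).imp T.k1_one fun h => ?_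
    exact (St.half_nhds h).mono fun y hy => T.χ_uE_ψ (hG.ok_gE j (hs.dom j)) hy
  · rcases le_total q.1 (T.R + 1 / 5) with h | h
    · rw [F.EQ_ψ ξ hq.le (h3 q hq.le h) e1]
    · rw [T.k1_zero h, zero_mul, zero_mul]

end Crest.Agent.N250.R0

end
end

-- ▼ part N250/Mc/End
section

/-!
# Row 250 (helper65): matching, the cut-off end
-/

set_option autoImplicit false
open Set Filter Topology
open Crest.GeometryTopology.MCF

noncomputable section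

namespace Crest.Agent.N250.R0

open Wr B1 Mt

variable {S : Mv}

theorem ex138 : Ex (13 / 8) (7 / 4) := by unfold Ex; norm_num

namespace St

variable {T : St S} {j : Fin T.p} {z : Par T.ℓ}

theorem r1_eq (T : St S) (j : Fin T.p) (z : Par T.ℓ) : T.r1 j z = Me.r1 (T.rS j)
    (fun q => ((1 - st (T.R + 1 / 3) (T.R + 2 / 3) q.1 : ℝ) : ℂ)) (Me.rU T.R z (T.U z)) := rfl

theorem r1_of_le {q : ℝ × ℝ} (hq : q.1 ≤ T.R + 1 / 3) : T.r1 j z q = Me.rU T.R z (T.U z) q := by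
  rw [r1_eq]
  exact Me.r1_eq (by simp only [st_zero (by linarith : T.R + 1 / 3 < T.R + 2 / 3) hq]; simp)

theorem r1_ev {q : ℝ × ℝ} (hq : q.1 < T.R + 1 / 3) : T.r1 j z =ᶠ[𝓝 q] Me.rU T.R z (T.U z) :=
  ((isOpen_lt continuous_fst continuous_const).eventually_mem hq).mono fun _ hy => r1_of_le (le_of_lt hy)

theorem Good.cn_r1 (h : T.Good) (hz : z ∈ T.Dm) : Cn 2 T.R (T.r1 j z) := by
  rw [r1_eq]
  refine Me.cn_r1 (b := T.R + 2 / 3) (by linarith) (Me.rU_c2 (T.hU.sol z hz).jet (h.reg z hz).2)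
    (fun q hq => ⟨(T.cd_rS (T.eR_lt_R.trans_le hq)).of_le two_le_infty, ?_⟩) (fun q hq => ?_)
    fun x θ _ => ⟨T.per_rS j x θ, rfl, Me.rU_per x θ⟩
  · exact (Complex.ofRealCLM.contDiff.comp (contDiff_const.sub
      (((contDiff_st _ _).of_le two_le_infty).comp contDiff_fst))).contDiffAt
  · simp only [st_one (by linarith : T.R + 1 / 3 < T.R + 2 / 3) hq.le]; simp

theorem sz (h1 : 32 ≤ T.k.K1) (h2 : T.k.ε1 ≤ 1 / 36) : Sz T.R T.k.K1 (13 / 8) (7 / 4) T.k.ε1 :=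
  ⟨ex138, by linarith [T.R_ge], h1, h2⟩

theorem sl (hz : z ∈ T.Dm) : Sl T.R T.k.K1 (13 / 8) (7 / 4) T.k.ε T.k.ε1 z (T.U z) :=
  T.hU.sl (by linarith [T.k.K1_ge]) T.k.C_pos.le T.k.small' hz

theorem a_small {δ : ℝ} (hδ : 0 < δ) (hz : z ∈ T.Dm) (hX : 3 * (T.R + 1) ^ 2 / δ < z.1.re) :
    ‖z.2.1‖ * (T.R + 1) ^ 2 ≤ δ := by
  have h1 := Gi.adm_norm (by linarith [T.k.K1_ge]) hz.2.2.2.1
  have h2 : 1 ≤ z.1.re := by linarith [hz.1, T.R_ge]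
  rw [div_lt_iff₀ hδ] at hX
  have h3 : ‖z.2.1‖ * z.1.re ≤ 5 / 2 :=
    le_trans (mul_le_mul_of_nonneg_left (by nlinarith) (norm_nonneg _)) h1
  nlinarith [mul_le_mul_of_nonneg_left hX.le (norm_nonneg z.2.1), mul_le_mul_of_nonneg_right h3 hδ.le]

end St

/-- **(A)** the cut-off end is close to the cylinder and solves the equation near `x = R` -/
theorem end_nr {ε : ℝ} (hε : 0 < ε) (S : Mv) (e : Ends S) : Ev e fun T => T.Good → ∃ X1 : ℝ,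
    ∀ j, ∀ z ∈ T.Dm, X1 < z.1.re → Cn 2 T.R (T.r1 j z) ∧
      (∀ q : ℝ × ℝ, T.R < q.1 → q.1 ≤ T.R + 1 / 5 → Nr (√2 : ℝ) ε 1 (T.r1 j z) q ∧
        PRj q.1 (j1 (T.r1 j z) q) (j2 (T.r1 j z) q) = 0) ∧
      ∀ θ, ‖T.r1 j z (T.R, θ) - (√2 : ℝ)‖ ≤ ε := by
  set δ := min (ε / 14) (1 / 140)
  have d0 : 0 < δ := lt_min (by positivity) (by norm_num)
  have d1 : δ ≤ ε / 14 := min_le_left _ _
  have d2 : δ ≤ 1 / 140 := min_le_right _ _
  refine ⟨δ, 32, 1, d0, one_pos, fun k _ h2 h3 _ => ⟨0, fun T _ hk _ hG => ?_⟩⟩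
  subst hk
  refine ⟨3 * (T.R + 1) ^ 2 / δ, fun j z hz hX => ⟨hG.cn_r1 hz, fun q q0 q1 => ?_, fun θ => ?_⟩⟩
  · obtain ⟨-, n, p⟩ := Me.rU_nr (St.sz h3 (by linarith)) (St.sl hz) h2 d2 (St.a_small d0 hz hX)
      (hG.reg z hz).2 q0 (by linarith)
    have ev := St.r1_ev (j := j) (z := z) (q := q) (by linarith)
    rw [(Me.j_congr ev).1, (Me.j_congr ev).2]
    exact ⟨Me.nr_mono (Me.nr_congr ev n) (by linarith) le_rfl, p⟩
  · rw [St.r1_of_le (by simp)]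
    have := (Me.vk_le (St.sz h3 (by linarith)) (St.sl hz) h2 (St.a_small d0 hz hX)
      (q := (T.R, θ)) ⟨le_rfl, by simp⟩).1
    exact Me.sqrt_near.trans (by change 2 * ‖vk _ _ _ _ _ 0 _ - 1‖ ≤ _; linarith)

end Crest.Agent.N250.R0

end
end

-- ▼ part N250/Mc/Sm
section

/-!
# Row 250 (helper86): matching, smallness of the core radius on the strip
-/

set_option autoImplicit false
open MeasureTheory Set Filter Topology
open scoped ContDiff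
open Crest.GeometryTopology.MCF

noncomputable section

namespace Crest.Agent.N250.R0

open WS Wr B1 Po Mt

theorem norm_fd_le_it {f : ℝ × ℝ → ℂ} (q w : ℝ × ℝ) (hw : ‖w‖ ≤ 1) :
    ‖fderiv ℝ f q w‖ ≤ ‖iteratedFDeriv ℝ 1 f q‖ := by
  rw [norm_iteratedFDeriv_one]
  exact (ContinuousLinearMap.le_opNorm _ _).trans
    (mul_le_of_le_one_right (norm_nonneg _) hw)

theorem norm_fd2_le_it {f : ℝ × ℝ → ℂ} {q : ℝ × ℝ} (hf : ContDiffAt ℝ 2 f q) (v w : ℝ × ℝ)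
    (hv : ‖v‖ ≤ 1) (hw : ‖w‖ ≤ 1) :
    ‖fderiv ℝ (fun y => fderiv ℝ f y w) q v‖ ≤ ‖iteratedFDeriv ℝ 2 f q‖ := by
  have h1 : DifferentiableAt ℝ (fderiv ℝ f) q :=
    (hf.fderiv_right (m := 1) (by norm_num)).differentiableAt one_ne_zero
  have h2 : fderiv ℝ (fun y => fderiv ℝ f y w) q v = iteratedFDeriv ℝ 2 f q ![v, w] := by
    rw [iteratedFDeriv_two_apply, fderiv_clm_apply h1 (differentiableAt_const _)]
    simp
  rw [h2]
  refine (ContinuousMultilinearMap.le_opNorm _ _).trans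
    (mul_le_of_le_one_right (norm_nonneg _) ?_)
  rw [Fin.prod_univ_two]
  exact mul_le_one₀ hv (norm_nonneg _) hw

/-- `Nr` from bounds of the iterated derivatives -/
theorem nr_of_it {f : ℝ × ℝ → ℂ} {q : ℝ × ℝ} {c : ℂ} {ε C : ℝ} (hf : ContDiffAt ℝ 2 f q)
    (h : ∀ i ≤ 2, ‖iteratedFDeriv ℝ i (fun y => f y - c) q‖ ≤ ε) (hC : ε ≤ C) : Nr c ε C f q := by
  have e1 : ‖((1, 0) : ℝ × ℝ)‖ ≤ 1 := by simp [Prod.norm_mk]
  have e2 : ‖((0, 1) : ℝ × ℝ)‖ ≤ 1 := by simp [Prod.norm_mk]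
  have hg : ContDiffAt ℝ 2 (fun y => f y - c) q := hf.sub contDiffAt_const
  have k : ∀ w, (fun y => fderiv ℝ f y w) = fun y => fderiv ℝ (fun y => f y - c) y w :=
    fun w => funext fun y => by rw [fderiv_sub_const]
  have h0 := h 0 (by norm_num)
  rw [norm_iteratedFDeriv_zero] at h0
  have h1 := h 1 (by norm_num)
  have h2 := (h 2 le_rfl).trans hC
  refine ⟨h0, ?_, ?_, ?_, ?_, ?_⟩
  · exact le_trans (by unfold d1; rw [congrFun (k _) q]; exact norm_fd_le_it q _ e1) h1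
  · exact le_trans (by unfold d2; rw [congrFun (k _) q]; exact norm_fd_le_it q _ e2) h1
  · exact le_trans (by unfold d1; rw [k]; exact norm_fd2_le_it hg _ _ e1 e1) h2
  · exact le_trans (by unfold d1 d2; rw [k]; exact norm_fd2_le_it hg _ _ e1 e2) h2
  · exact le_trans (by unfold d2; rw [k]; exact norm_fd2_le_it hg _ _ e2 e2) h2

variable {S : Mv}

/-- the ends of `S` converge to the cylinder with two derivatives -/
theorem rS_it (e : Ends S) {δ : ℝ} (hδ : 0 < δ) (k : ℕ) : ∃ R1 : ℝ, ∀ T : St S, T.e = e →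
    ∀ j (q : ℝ × ℝ), R1 ≤ q.1 → ∀ i ≤ k,
      ‖iteratedFDeriv ℝ i (fun y => T.rS j y - ((√2 : ℝ) : ℂ)) q‖ ≤ δ := by
  choose s hs using fun x : Fin e.p × Fin (k + 1) => e.lim x.1 x.2 δ hδ
  obtain ⟨M, hM⟩ := Finite.exists_le s
  refine ⟨max M e.R + 1, ?_⟩
  rintro T rfl j q hq i hi
  have h1 : T.e.R < q.1 := by linarith [le_max_right M T.e.R]
  have h2 := hs (j, ⟨i, by omega⟩) q (by linarith [le_max_left M T.e.R, hM (j, ⟨i, by omega⟩)])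
  have h3 : ContDiffAt ℝ ∞ (fun y => T.e.r j y - √2) q := (Ec.cd_r h1).sub contDiffAt_const
  have h4 := Complex.ofRealLI.norm_iteratedFDeriv_comp_left h3 (i := i) (by exact_mod_cast le_top)
  refine le_of_eq_of_le ?_ (h4 ▸ h2)
  congr 2
  funext y
  simp [St.rS]

namespace St

variable (T : St S)

/-- `1 / ⟨n, ω⟩` on the zone `R - 1 ≤ x ≤ R + 1/2` of the tube `j` -/
def nI (j : Fin T.p) : T.G.SmC :=
  EC.lift T.G (T.e.Q j) (T.G.oR (T.cu j (-2) (-1) * (1 - T.cu j (1 / 2) 1))) fun y => (T.nu j y)⁻¹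

theorem zn_nI (j : Fin T.p) :
    EC.Zn T.G (T.e.Q j) (Ioi T.e.R) (EC.Kc T.P j (T.R + -2) (T.R + 1)) :=
  EC.zn_Kc (T.eR_lt (by norm_num)) isOpen_Ioi fun _ h => (T.eR_lt (by norm_num)).trans_le h.1

theorem sp_nI0 (j : Fin T.p) : EC.Sp (EC.Kc T.P j (T.R + -2) (T.R + 1))
    (T.G.oR (T.cu j (-2) (-1) * (1 - T.cu j (1 / 2) 1))) :=
  EC.sp_bump (T.eR_lt (by norm_num)) (by linarith) (by linarith)

theorem cs_nI (j : Fin T.p) : HasCompactSupport (T.nI j).1 :=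
  EC.compact_Kc.of_isClosed_subset (isClosed_tsupport _)
    (((T.sp_nI0 j).lift _).tsupp EC.closed_Kc)

theorem nI_ψ (j : Fin T.p) {q : ℝ × ℝ} (h1 : T.R - 1 ≤ q.1) (h2 : q.1 ≤ T.R + 1 / 2) :
    (T.nI j).1 (T.ψ j q) = (T.nu j q)⁻¹ := by
  have h0 : T.e.R < q.1 := T.eR_lt' (by linarith)
  have hok : EC.Ok (Ioi T.e.R) fun y => (T.nu j y)⁻¹ := T.ok_nu_inv subset_rfl
  rw [nI, (T.zn_nI j).lift_apply (T.sp_nI0 j) hok, T.cr_ψ hok.per h0]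
  have e : (T.G.oR (T.cu j (-2) (-1) * (1 - T.cu j (1 / 2) 1))).1 (T.ψ j q) =
      (((T.cu j (-2) (-1)).1 (T.ψ j q) * (1 - (T.cu j (1 / 2) 1).1 (T.ψ j q)) : ℝ) : ℂ) := rfl
  rw [e, T.cu_ψ_one (by norm_num) (by norm_num) (by linarith),
    T.cu_ψ_zero (by norm_num) h0 h2]
  simp

end St

/-- all jets of `rW - rS` on the zone `R - 1/2 ≤ x ≤ R + 1/3` are `O(ξ)` -/
theorem Fa.rW_it {T : St S} (F : Fa T) (k : ℕ) : Sg fun σ : Scale T.G => ∃ C : ℝ, 0 < C ∧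
    ∀ (ξ : F.Ξ σ) j (q : ℝ × ℝ), T.R - 1 / 2 ≤ q.1 → q.1 ≤ T.R + 1 / 3 → ∀ i ≤ k,
      ‖iteratedFDeriv ℝ i (fun y => T.rW j (F.w ξ) y - T.rS j y) q‖ ≤ C * ‖ξ‖ := by
  have hJ : Icc (T.R - 1 / 2) (T.R + 1 / 3) ⊆ Ioi T.e.R := fun x hx =>
    T.eR_lt' (by linarith [hx.1])
  choose C1 h1 hC1 using fun j => Ec.jet_psi (e := T.e) (j := j) T.reg (F := ℂ) isCompact_Icc hJ k
  obtain ⟨C2, hC2⟩ := Finite.exists_le C1
  filter_upwards [F.grn.nonempty_jets T.G.mainS,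
    eventually_all.2 fun j => T.G.NN_ne_top_of_cs (T.cs_nI j)] with ε hJ hn σ hσ
  obtain ⟨J⟩ := hJ σ hσ
  subst hσ
  obtain ⟨C3, hC3⟩ := Finite.exists_le fun j => ‖σ.el (T.nI j) (hn j)‖
  set C4 : ℝ := (((σ.ε (k + 5))⁻¹ : NNReal) : ℝ) with hC4
  have p4 : 0 ≤ C4 := NNReal.coe_nonneg _
  refine ⟨|C2| * (C4 * (|C3| * ‖J.J0‖)) + 1, by positivity, fun ξ j q hq hq' i hi => ?_⟩
  set u : σ.AA := σ.el (T.nI j) (hn j) * J.J0 (ξ.1, ξ.2.1) with hu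
  have n1 : ‖((ξ.1, ξ.2.1) : σ.AA × (F.I → ℂ))‖ ≤ ‖ξ‖ := by
    rw [Prod.norm_mk]
    exact max_le (norm_fst_le ξ) ((norm_fst_le ξ.2).trans (norm_snd_le ξ))
  have n2 : ‖u‖ ≤ |C3| * ‖J.J0‖ * ‖ξ‖ := by
    refine (norm_mul_le _ _).trans ?_
    rw [mul_assoc]
    exact mul_le_mul ((hC3 j).trans (le_abs_self _))
      ((J.J0.le_opNorm _).trans (mul_le_mul_of_nonneg_left n1 (norm_nonneg _))) (norm_nonneg _)
      (abs_nonneg _)
  have n3 := hC1 j (σ.val u).1 (C4 * ‖u‖) (σ.val u).2 q ⟨hq, hq'⟩ (fun l hl => by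
    change ‖Lim.DW T.G.M l (σ.val u).1 _‖ ≤ _
    rw [← T.G.SC_Dw_DW]
    refine (Scale.norm_Dw_le l u _).trans (mul_le_mul_of_nonneg_right ?_ (norm_nonneg _))
    exact NNReal.coe_le_coe.2 (inv_anti₀ (σ.adm.pos _) (σ.adm.antitone (by omega)))) i hi
  have ev : (fun y => T.rW j (F.w ξ) y - T.rS j y) =ᶠ[𝓝 q] (σ.val u).1 ∘ Ec.psi T.e j := by
    have o : ∀ᶠ y : ℝ × ℝ in 𝓝 q, T.R - 1 < y.1 ∧ y.1 < T.R + 1 / 2 :=
      (St.half_nhds (by linarith)).and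
        ((isOpen_lt continuous_fst continuous_const).mem_nhds (show q.1 < _ by linarith))
    refine o.mono fun y hy => ?_
    have h0 : T.e.R < y.1 := T.eR_lt' (by linarith [hy.1])
    have e : (σ.val u).1 (T.ψ j y) = (T.nI j).1 (T.ψ j y) *
        (((T.G.ζ.1 (T.ψ j y) * T.G.ι.1 (T.ψ j y) : ℝ) : ℂ) * (F.w ξ).1 (T.ψ j y)) := by
      rw [hu, map_mul, J.val0]; rfl
    show _ = (σ.val u).1 (Ec.psi T.e j y)
    rw [← T.ψ_eq h0, e, T.nI_ψ j hy.1.le hy.2.le, T.ζ_ψ h0 (by linarith [hy.2]),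
      T.ι_ψ (by linarith [hy.1])]
    simp [St.rW, div_eq_inv_mul]
  rw [(ev.iteratedFDeriv ℝ i).self_of_nhds]
  refine n3.trans ?_
  have := norm_nonneg ξ
  calc C1 j * (C4 * ‖u‖) ≤ |C2| * (C4 * (|C3| * ‖J.J0‖ * ‖ξ‖)) := by
        gcongr; exact (hC2 j).trans (le_abs_self _)
    _ = |C2| * (C4 * (|C3| * ‖J.J0‖)) * ‖ξ‖ := by ring
    _ ≤ _ := by nlinarith

/-- (D) of the matching leaf -/
theorem w_nr {ε : ℝ} (hε : 0 < ε) (S : Mv) (e : Ends S) : Ev e fun T =>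
    (∀ j (q : ℝ × ℝ), T.R ≤ q.1 → Nr ((√2 : ℝ) : ℂ) ε 1 (T.rS j) q) ∧
    ∀ F : Fa T, Sg fun σ => ∃ ρ : ℝ, 0 < ρ ∧ ∀ ξ : F.Ξ σ, ‖ξ‖ < ρ → ∀ j (q : ℝ × ℝ), T.R ≤ q.1 →
      q.1 ≤ T.R + 1 / 5 → Nr ((√2 : ℝ) : ℂ) ε 1 (T.rW j (F.w ξ)) q := by
  have hδ : 0 < min ε 1 / 2 := by positivity
  have mono : ∀ {f : ℝ × ℝ → ℂ} {q : ℝ × ℝ}, Nr ((√2 : ℝ) : ℂ) (min ε 1) 1 f q →
      Nr ((√2 : ℝ) : ℂ) ε 1 f q := fun h =>
    ⟨h.1.trans (min_le_left _ _), h.2.1.trans (min_le_left _ _), h.2.2.1.trans (min_le_left _ _),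
      h.2.2.2⟩
  obtain ⟨R1, h1⟩ := rS_it e hδ 2
  refine (Ev.of_R R1).mono fun T hT hR => ⟨fun j q hq => ?_, fun F => ?_⟩
  · exact mono (nr_of_it ((T.cd_rS (T.eR_lt_R.trans_le hq)).of_le two_le_infty)
      (fun i hi => (h1 T hT j q (hR.trans hq) i hi).trans (by linarith)) (min_le_right _ _))
  · refine (F.rW_it 2).mono fun σ ⟨C, hC, h2⟩ => ⟨min ε 1 / 2 / C, by positivity,
      fun ξ hξ j q hq hq' => ?_⟩
    have h0 := T.eR_lt_R.trans_le hq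
    refine mono (nr_of_it ((T.cd_rW _ h0).of_le two_le_infty) (fun i hi => ?_) (min_le_right _ _))
    have a1 := h1 T hT j q (hR.trans hq) i hi
    have a2 := h2 ξ j q (by linarith) (by linarith) i hi
    have c1 : ContDiffAt ℝ i (fun y => T.rS j y - ((√2 : ℝ) : ℂ)) q :=
      ((T.cd_rS h0).sub contDiffAt_const).of_le (by exact_mod_cast le_top)
    have c2 : ContDiffAt ℝ i (fun y => T.rW j (F.w ξ) y - T.rS j y) q :=
      ((T.cd_rW _ h0).sub (T.cd_rS h0)).of_le (by exact_mod_cast le_top)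
    have e1 : (fun y => T.rW j (F.w ξ) y - ((√2 : ℝ) : ℂ)) =
        (fun y => T.rW j (F.w ξ) y - T.rS j y) + fun y => T.rS j y - ((√2 : ℝ) : ℂ) :=
      funext fun y => by simp
    rw [e1, iteratedFDeriv_add_apply c2 c1]
    rw [lt_div_iff₀ hC] at hξ
    refine (norm_add_le _ _).trans ?_
    nlinarith

end Crest.Agent.N250.R0

end
end

-- ▼ part N250/Mc/EqL

/-!
# Row 250 (helper30): `Mat` and `MatD` from the matching of the radii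
-/

set_option autoImplicit false
open Set Filter Topology
open Crest.GeometryTopology.MCF

noncomputable section

namespace Crest.Agent.N250.Mq

open WS Wr B1 R0

variable {S : Mv} {T : St S} {F : Fa T} {σ : Scale T.G}

/-- the matching of the radii -/
def Mt (F : Fa T) (N : ℕ) (X : ℂ) (a : Fin T.p → ℂ) (ξ : F.Ξ σ) : Prop :=
  ∀ j (q : ℝ × ℝ), T.R < q.1 → q.1 < T.R + 1 / 3 →
    T.rW j (F.w ξ) q = (2 * T.vU (F.zE N X a ξ j) q) ^ (1 / 2 : ℂ)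

theorem mat_of_mt (hG : T.Good) {N : ℕ} {X : ℂ} {y : Fin F.n → ℂ} {a : Fin T.p → ℂ} {ξ : F.Ξ σ}
    (hv : (σ.val (F.NL ξ)).1 = F.nl ξ)
    (hN : ∀ p, T.G.ζ.1 p = 1 → F.D.Nd (F.w ξ) (T.TT ξ.2.2) (F.c ξ) p) (hs : F.Sv N X y a ξ)
    (mt : Mt F N X a ξ) : F.Mat N X a ξ :=
  ⟨mt, fun p hp => ⟨EQ_zero hv hs hG.reg mt hp, hN p (ζ_one hp)⟩⟩

theorem matD_of_mt (hG : T.Good) (hN : F.NLD σ)
    (h : ∃ ρ X1 : ℝ, 0 < ρ ∧ ∀ N X y a (ξ : F.Ξ σ), X1 < X.re → ‖ξ‖ < ρ → ‖F.dat ξ‖ < ρ →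
      F.Sv N X y a ξ → Mt F N X a ξ) : F.MatD σ := by
  obtain ⟨ρ, X1, hρ, h⟩ := h
  obtain ⟨r, hr, hv⟩ := Metric.eventually_nhds_iff.1 hN.val
  refine ⟨min ρ r, X1, lt_min hρ hr, fun N X y a ξ hX h1 h2 hs => ?_⟩
  have k := hv (y := ξ) (by rw [dist_zero_right]; exact h1.trans_le (min_le_right _ _))
  exact mat_of_mt hG k.1 k.2 hs
    (h N X y a ξ hX (h1.trans_le (min_le_left _ _)) (h2.trans_le (min_le_left _ _)) hs)

end Crest.Agent.N250.Mq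

end
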